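import Vale.Agent.P301Z.Semi.Defs

/-! # P301Z, block SEMI: the versions with uncountably many good parameters on every line -/

open scoped Manifold ContDiff Topology
open Filter Metric Set

set_option linter.all false

noncomputable section

namespace Vale.Agent.P301Z.Semi

open Vale.Agent.P272.K Vale.Agent.P301.H599 Vale.Agent.P301.H99

/-- countably many analytic sets which cover uncountably many points of every real line -/
def BIG2 : Prop :=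
  ∀ (n : ℕ) (p : Fin (n + 1) → ℝ) (ρ : ℝ), 0 < ρ → ∀ (J : Type) [Countable J]
    (A : J → Set (Cm (n + 1))), (∀ j, DiscAn (ball (fun i => (p i : ℂ)) ρ) (A j)) →
    (∀ y : Fin n → ℝ, (∀ i, |y i - p i.succ| < ρ) →
      ¬ {x : ℝ | |x - p 0| < ρ ∧
        ∃ j, (fun i => ((Fin.cons x y : Fin (n + 1) → ℝ) i : ℂ)) ∈ A j}.Countable) →
    ∃ j, ball (fun i => (p i : ℂ)) ρ ⊆ A j

/-- Semicontinuity, for any countable family `S` of lists of lower bounds. -/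
def SEMIG2 : Prop :=
  ∀ (d b : ℕ) (X : Type) [TopologicalSpace X] [T2Space X] [CompactSpace X] (Y : Cm b → Type)
    [∀ t, TopologicalSpace (Y t)] [∀ t, ChartedSpace (Cm d) (Y t)]
    [∀ t, IsManifold 𝓘(ℂ, Cm d) ω (Y t)] (κ : Cm b → Type) (M : ∀ t, LineBundle d (Y t) (κ t))
    (N : ℕ) (r : ℝ), 0 < r → CFam X Y κ M N (ball 0 r) →
    ∃ r' : ℝ, 0 < r' ∧ r' ≤ r ∧ ∀ (J : Type) [Countable J] (S : J → Set (ℕ × ℕ)) (b' : ℕ)
      (p : Fin (b' + 1) → ℝ) (ρ : ℝ)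
      (ψ : Cm (b' + 1) → Cm b), 0 < ρ → DifferentiableOn ℂ ψ (ball (fun i => (p i : ℂ)) ρ) →
      MapsTo ψ (ball (fun i => (p i : ℂ)) ρ) (ball 0 r') →
      (interior (ψ '' ball (fun i => (p i : ℂ)) ρ)).Nonempty →
      (∀ y : Fin b' → ℝ, (∀ i, |y i - p i.succ| < ρ) →
        ¬ {x : ℝ | |x - p 0| < ρ ∧ ∃ j, ∀ u ∈ S j,
          H0 (M (ψ fun i => ((Fin.cons x y : Fin (b' + 1) → ℝ) i : ℂ))) u.1 u.2}.Countable) →
      ∃ j, ∀ u ∈ S j, H0 (M 0) u.1 u.2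

/-- Semicontinuity. -/
def SEMI2 : Prop :=
  ∀ (d b : ℕ) (X : Type) [TopologicalSpace X] [T2Space X] [CompactSpace X] (Y : Cm b → Type)
    [∀ t, TopologicalSpace (Y t)] [∀ t, ChartedSpace (Cm d) (Y t)]
    [∀ t, IsManifold 𝓘(ℂ, Cm d) ω (Y t)] (κ : Cm b → Type) (M : ∀ t, LineBundle d (Y t) (κ t))
    (N : ℕ) (r : ℝ), 0 < r → CFam X Y κ M N (ball 0 r) →
    ∃ r' : ℝ, 0 < r' ∧ r' ≤ r ∧ ∀ (n b' : ℕ) (p : Fin (b' + 1) → ℝ) (ρ : ℝ)
      (ψ : Cm (b' + 1) → Cm b), 0 < ρ → DifferentiableOn ℂ ψ (ball (fun i => (p i : ℂ)) ρ) →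
      MapsTo ψ (ball (fun i => (p i : ℂ)) ρ) (ball 0 r') →
      (interior (ψ '' ball (fun i => (p i : ℂ)) ρ)).Nonempty →
      (∀ y : Fin b' → ℝ, (∀ i, |y i - p i.succ| < ρ) →
        ¬ {x : ℝ | |x - p 0| < ρ ∧
          Grow (M (ψ fun i => ((Fin.cons x y : Fin (b' + 1) → ℝ) i : ℂ))) n}.Countable) →
      Grow (M 0) n

end Vale.Agent.P301Z.Semi
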