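import Vale.Agent.P301.H99.LimN

/-! # P301Z, block SEMI: the number of sections in a holomorphic family of pairs. Definitions. -/

open scoped Manifold ContDiff Topology
open Filter Metric Set

set_option linter.all false

noncomputable section

namespace Vale.Agent.P301Z.Semi

open Vale.Agent.P272.K Vale.Agent.P301.H599 Vale.Agent.P301.H99

/-- `h⁰(X, L^m) ≥ k` -/
def H0 {d : ℕ} {X : Type} [TopologicalSpace X] [ChartedSpace (Cm d) X] {ι : Type}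
    (L : LineBundle d X ι) (m k : ℕ) : Prop :=
  ∃ f : Fin k → ι → X → ℂ, (∀ j, Sec L m (f j)) ∧ IndSec L f

/-- `h⁰(X, L^(K m)) ≥ c m^n` -/
def Grow {d : ℕ} {X : Type} [TopologicalSpace X] [ChartedSpace (Cm d) X] {ι : Type}
    (L : LineBundle d X ι) (n : ℕ) : Prop :=
  ∃ K : ℕ, 0 < K ∧ ∃ c : ℝ, 0 < c ∧ ∀ m k : ℕ, (k : ℝ) ≤ c * (m : ℝ) ^ n → H0 L (K * m) k

/-- every holomorphic disc in `B` lies in `A` or meets `A` in a countable set -/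
def DiscAn {b : ℕ} (B A : Set (Cm b)) : Prop :=
  ∀ γ : ℂ → Cm b, DifferentiableOn ℂ γ (ball 0 1) → MapsTo γ (ball 0 1) B →
    (ball (0 : ℂ) 1 ∩ γ ⁻¹' A).Countable ∨ ball (0 : ℂ) 1 ⊆ γ ⁻¹' A

section
variable {d b : ℕ} (X : Type) [TopologicalSpace X] (Y : Cm b → Type) [∀ t, TopologicalSpace (Y t)]
  [∀ t, ChartedSpace (Cm d) (Y t)] (κ : Cm b → Type) (M : ∀ t, LineBundle d (Y t) (κ t))

/-- A holomorphic family of pairs `(Y t, M t)`, `t ∈ B`, on the fixed space `X`: charts and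
transition functions depend holomorphically on `t` at every point of `X`. -/
structure CFam (N : ℕ) (B : Set (Cm b)) where
  φ : ∀ t, X ≃ₜ Y t
  V : Fin N → Set X
  e : ∀ t, Fin N → Chart d (Y t)
  i : ∀ t, Fin N → κ t
  isOpen : ∀ a, IsOpen (V a)
  cover : ∀ x, ∃ a, x ∈ V a
  chart : ∀ t ∈ B, ∀ a, e t a ∈ IsManifold.maximalAtlas 𝓘(ℂ, Cm d) ω (Y t)
  source : ∀ t ∈ B, ∀ a, ∀ x ∈ V a, φ t x ∈ (e t a).source ∧ φ t x ∈ (M t).U (i t a)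
  hol : ∀ a, ∀ x ∈ V a, DifferentiableOn ℂ (fun t => e t a (φ t x)) B
  cont : ∀ a, ContinuousOn (fun p : Cm b × X => e p.1 a (φ p.1 p.2)) (B ×ˢ V a)
  holg : ∀ a a', ∀ x ∈ V a ∩ V a', DifferentiableOn ℂ (fun t => (M t).g (i t a) (i t a') (φ t x)) B
  contg : ∀ a a', ContinuousOn (fun p : Cm b × X => (M p.1).g (i p.1 a) (i p.1 a') (φ p.1 p.2))
    (B ×ˢ (V a ∩ V a'))

/-- Polydiscs in the charts of the family, with overlaps `Q` independent of the parameter. -/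
structure CD (n : ℕ) (B : Set (Cm b)) where
  e : ∀ t, Fin n → Chart d (Y t)
  i : ∀ t, Fin n → κ t
  z : Fin n → Cm d
  ρ : Fin n → ℝ
  Q : Fin n → Fin n → Set (Cm d)
  G : ℝ
  pos : ∀ a, 0 < ρ a
  chart : ∀ t ∈ B, ∀ a, e t a ∈ IsManifold.maximalAtlas 𝓘(ℂ, Cm d) ω (Y t)
  tgt : ∀ t ∈ B, ∀ a, ∀ w ∈ ball (z a) (8 * ρ a),
    w ∈ (e t a).target ∧ (e t a).symm w ∈ (M t).U (i t a)
  cover : ∀ t ∈ B, ∀ y : Y t, ∃ a, y ∈ (e t a).source ∧ e t a y ∈ ball (z a) (2 * ρ a)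
  cover0 : ∀ y : Y 0, ∃ a, y ∈ (e 0 a).source ∧ e 0 a y ∈ ball (z a) (ρ a)
  sub : ∀ a a', Q a a' ⊆ ball (z a) (8 * ρ a)
  src : ∀ t ∈ B, ∀ a a', ∀ w ∈ Q a a', (e t a).symm w ∈ (e t a').source ∧
    e t a' ((e t a).symm w) ∈ ball (z a') (2 * ρ a')
  big : ∀ a a', ∀ w ∈ ball (z a) (8 * ρ a), (e 0 a).symm w ∈ (e 0 a').source →
    e 0 a' ((e 0 a).symm w) ∈ ball (z a') (ρ a') → w ∈ Q a a'
  hol : ∀ a a', ∀ w ∈ Q a a', DifferentiableOn ℂ (fun t => e t a' ((e t a).symm w)) B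
  holg : ∀ a a', ∀ w ∈ Q a a',
    DifferentiableOn ℂ (fun t => (M t).g (i t a) (i t a') ((e t a).symm w)) B
  bdd : ∀ t ∈ B, ∀ a a', ∀ w ∈ Q a a', ‖(M t).g (i t a) (i t a') ((e t a).symm w)‖ ≤ G

end

/-- from the family to the polydiscs -/
def JOINT : Prop :=
  ∀ (d b : ℕ) (X : Type) [TopologicalSpace X] [T2Space X] [CompactSpace X] (Y : Cm b → Type)
    [∀ t, TopologicalSpace (Y t)] [∀ t, ChartedSpace (Cm d) (Y t)]
    [∀ t, IsManifold 𝓘(ℂ, Cm d) ω (Y t)] (κ : Cm b → Type) (M : ∀ t, LineBundle d (Y t) (κ t))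
    (N : ℕ) (r : ℝ), 0 < r → CFam X Y κ M N (ball 0 r) →
    ∃ r' : ℝ, 0 < r' ∧ r' ≤ r ∧ ∃ n : ℕ, Nonempty (CD Y κ M n (ball 0 r'))

/-- kernels of a holomorphic family of linear maps which are finite dimensional uniformly -/
def CORE : Prop :=
  ∀ (E : Type) [AddCommGroup E] [Module ℂ E] (Q P : Type) [Fintype P] (ev : E →ₗ[ℂ] (P → ℂ))
    (D : ℂ → E →ₗ[ℂ] (Q → ℂ)) (C : ℝ) (k : ℕ),
    (∀ f q, DifferentiableOn ℂ (fun s => D s f q) (ball 0 1)) →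
    (∀ s ∈ ball (0 : ℂ) 1, ∀ f, ∃ c : ℝ, ∀ q, ‖D s f q‖ ≤ c) →
    (∀ s₀ ∈ ball (0 : ℂ) 1, ∀ s ∈ ball (0 : ℂ) 1, ∀ f (c : ℝ), 0 ≤ c → (∀ q, ‖D s₀ f q‖ ≤ c) →
      (∀ p, ‖ev f p‖ ≤ c) → ∀ q, ‖D s f q‖ ≤ C * c) →
    (ball (0 : ℂ) 1 ∩ {s | ∃ f : Fin k → E, (∀ j, D s (f j) = 0) ∧
        LinearIndependent ℂ fun j => ev (f j)}).Countable ∨
      ball (0 : ℂ) 1 ⊆ {s | ∃ f : Fin k → E, (∀ j, D s (f j) = 0) ∧
        LinearIndependent ℂ fun j => ev (f j)}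

/-- the parameters with many sections lie in an analytic set which detects the sections at `0` -/
def CECH : Prop :=
  ∀ (d b : ℕ) (Y : Cm b → Type) [∀ t, TopologicalSpace (Y t)] [∀ t, ChartedSpace (Cm d) (Y t)]
    [∀ t, IsManifold 𝓘(ℂ, Cm d) ω (Y t)] (κ : Cm b → Type) (M : ∀ t, LineBundle d (Y t) (κ t))
    (n : ℕ) (B : Set (Cm b)), 0 ∈ B → CD Y κ M n B → ∀ m k : ℕ,
    ∃ A : Set (Cm b), DiscAn B A ∧ (∀ t ∈ B, H0 (M t) m k → t ∈ A) ∧ (0 ∈ A → H0 (M 0) m k)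

/-- countably many analytic sets which cover most real points of a polydisc -/
def BIG : Prop :=
  ∀ (n : ℕ) (p : Fin (n + 1) → ℝ) (ρ : ℝ), 0 < ρ → ∀ (J : Type) [Countable J]
    (A : J → Set (Cm (n + 1))), (∀ j, DiscAn (ball (fun i => (p i : ℂ)) ρ) (A j)) →
    (∀ y : Fin n → ℝ, (∀ i, |y i - p i.succ| < ρ) →
      {x : ℝ | |x - p 0| < ρ ∧
        ∀ j, (fun i => ((Fin.cons x y : Fin (n + 1) → ℝ) i : ℂ)) ∉ A j}.Countable) →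
    ∃ j, ball (fun i => (p i : ℂ)) ρ ⊆ A j

/-- Semicontinuity, for any countable family `S` of lists of lower bounds. -/
def SEMIG : Prop :=
  ∀ (d b : ℕ) (X : Type) [TopologicalSpace X] [T2Space X] [CompactSpace X] (Y : Cm b → Type)
    [∀ t, TopologicalSpace (Y t)] [∀ t, ChartedSpace (Cm d) (Y t)]
    [∀ t, IsManifold 𝓘(ℂ, Cm d) ω (Y t)] (κ : Cm b → Type) (M : ∀ t, LineBundle d (Y t) (κ t))
    (N : ℕ) (r : ℝ), 0 < r → CFam X Y κ M N (ball 0 r) →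
    ∃ r' : ℝ, 0 < r' ∧ r' ≤ r ∧ ∀ (J : Type) [Countable J] (S : J → Set (ℕ × ℕ)) (b' : ℕ)
      (p : Fin (b' + 1) → ℝ) (ρ : ℝ)
      (ψ : Cm (b' + 1) → Cm b), 0 < ρ → DifferentiableOn ℂ ψ (ball (fun i => (p i : ℂ)) ρ) →
      MapsTo ψ (ball (fun i => (p i : ℂ)) ρ) (ball 0 r') →
      (interior (ψ '' ball (fun i => (p i : ℂ)) ρ)).Nonempty →
      (∀ y : Fin b' → ℝ, (∀ i, |y i - p i.succ| < ρ) →
        {x : ℝ | |x - p 0| < ρ ∧ ¬ ∃ j, ∀ u ∈ S j,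
          H0 (M (ψ fun i => ((Fin.cons x y : Fin (b' + 1) → ℝ) i : ℂ))) u.1 u.2}.Countable) →
      ∃ j, ∀ u ∈ S j, H0 (M 0) u.1 u.2

/-- Semicontinuity. -/
def SEMI : Prop :=
  ∀ (d b : ℕ) (X : Type) [TopologicalSpace X] [T2Space X] [CompactSpace X] (Y : Cm b → Type)
    [∀ t, TopologicalSpace (Y t)] [∀ t, ChartedSpace (Cm d) (Y t)]
    [∀ t, IsManifold 𝓘(ℂ, Cm d) ω (Y t)] (κ : Cm b → Type) (M : ∀ t, LineBundle d (Y t) (κ t))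
    (N : ℕ) (r : ℝ), 0 < r → CFam X Y κ M N (ball 0 r) →
    ∃ r' : ℝ, 0 < r' ∧ r' ≤ r ∧ ∀ (n b' : ℕ) (p : Fin (b' + 1) → ℝ) (ρ : ℝ)
      (ψ : Cm (b' + 1) → Cm b), 0 < ρ → DifferentiableOn ℂ ψ (ball (fun i => (p i : ℂ)) ρ) →
      MapsTo ψ (ball (fun i => (p i : ℂ)) ρ) (ball 0 r') →
      (interior (ψ '' ball (fun i => (p i : ℂ)) ρ)).Nonempty →
      (∀ y : Fin b' → ℝ, (∀ i, |y i - p i.succ| < ρ) →
        {x : ℝ | |x - p 0| < ρ ∧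
          ¬ Grow (M (ψ fun i => ((Fin.cons x y : Fin (b' + 1) → ℝ) i : ℂ))) n}.Countable) →
      Grow (M 0) n

end Vale.Agent.P301Z.Semi
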