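import Vale.Agent.P301Z.Semi.Defs

/-! # P301Z, block SEMI: countably many analytic sets which cover most real points -/

open Filter Metric Set

noncomputable section

namespace Vale.Agent.P301Z.Semi

open Vale.Agent.P272.K

namespace BigH

theorem mem_cons {n : ℕ} {c : Cm (n + 1)} {ρ : ℝ} (h : 0 < ρ) {x : ℂ} {w : Cm n} :
    (Fin.cons x w : Cm (n + 1)) ∈ ball c ρ ↔ ‖x - c 0‖ < ρ ∧ w ∈ ball (fun i => c i.succ) ρ := by
  simp only [mem_ball, dist_pi_lt_iff h, Fin.forall_fin_succ, Fin.cons_zero, Fin.cons_succ]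
  rw [dist_eq_norm]

theorem diff_cons {n : ℕ} {f : ℂ → ℂ} {g : ℂ → Cm n} {s : Set ℂ} (hf : DifferentiableOn ℂ f s)
    (hg : DifferentiableOn ℂ g s) :
    DifferentiableOn ℂ (fun z => (Fin.cons (f z) (g z) : Cm (n + 1))) s :=
  differentiableOn_pi.2 (Fin.cases (by simpa only [Fin.cons_zero] using hf)
    fun i => by simpa only [Fin.cons_succ] using differentiableOn_pi.1 hg i)

theorem slice {n : ℕ} {c : Cm (n + 1)} {ρ : ℝ} (h : 0 < ρ) {A : Set (Cm (n + 1))}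
    (hA : DiscAn (ball c ρ) A) {x : ℂ} (hx : ‖x - c 0‖ < ρ) :
    DiscAn (ball (fun i : Fin n => c i.succ) ρ) {w | (Fin.cons x w : Cm (n + 1)) ∈ A} :=
  fun γ h1 h2 => hA (fun z => Fin.cons x (γ z)) (diff_cons (differentiableOn_const x) h1)
    fun _ hz => (mem_cons h).2 ⟨hx, h2 hz⟩

theorem disc {n : ℕ} {p : Fin (n + 1) → ℝ} {ρ : ℝ} (h : 0 < ρ) {A : Set (Cm (n + 1))}
    (hA : DiscAn (ball (fun i => (p i : ℂ)) ρ) A) {w : Cm n}
    (hw : w ∈ ball (fun i : Fin n => (p i.succ : ℂ)) ρ)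
    (hu : ¬{x : ℝ | |x - p 0| < ρ ∧ (Fin.cons (x : ℂ) w : Cm (n + 1)) ∈ A}.Countable) {x : ℂ}
    (hx : ‖x - p 0‖ < ρ) : (Fin.cons x w : Cm (n + 1)) ∈ A := by
  have h0 : (ρ : ℂ) ≠ 0 := Complex.ofReal_ne_zero.2 h.ne'
  have e : ∀ z : ℂ, (p 0 : ℂ) + ρ * ((z - p 0) / ρ) = z := fun z => by field_simp; ring
  have m : ∀ z : ℂ, ‖z - p 0‖ < ρ → (z - p 0) / ρ ∈ ball (0 : ℂ) 1 := fun z hz => by
    rwa [mem_ball_zero_iff, norm_div, Complex.norm_real, Real.norm_of_nonneg h.le, div_lt_one h]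
  rcases hA (fun s => Fin.cons (p 0 + ρ * s) w) (diff_cons (by fun_prop) (differentiableOn_const w))
    (fun s hs => (mem_cons h).2 ⟨by
      rw [add_sub_cancel_left, norm_mul, Complex.norm_real, Real.norm_of_nonneg h.le]
      exact mul_lt_of_lt_one_right h (mem_ball_zero_iff.1 hs), hw⟩) with k | k
  · have k' := k.preimage_of_injOn (f := fun x : ℝ => ((x : ℂ) - p 0) / ρ) fun a _ b _ hab =>
      Complex.ofReal_injective ((e a).symm.trans
        ((congrArg (fun z => (p 0 : ℂ) + ρ * z) hab).trans (e b)))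
    refine (hu (Countable.mono ?_ k')).elim
    refine fun x hx => ⟨m _ ?_, ?_⟩
    · rw [← Complex.ofReal_sub, Complex.norm_real]
      exact hx.1
    · show (Fin.cons ((p 0 : ℂ) + ρ * (((x : ℂ) - p 0) / ρ)) w : Cm (n + 1)) ∈ A
      rw [e]
      exact hx.2
  · have := k (m x hx)
    rwa [mem_preimage, e] at this

/-- large subsets of the box -/
def Lg (ρ : ℝ) : (n : ℕ) → (Fin n → ℝ) → Set (Fin n → ℝ) → Prop
  | 0, _, S => S.Nonempty
  | n + 1, p, S => ¬{x : ℝ | |x - p 0| < ρ ∧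
      Lg ρ n (fun i => p i.succ) {y | (Fin.cons x y : Fin (n + 1) → ℝ) ∈ S}}.Countable

theorem unc {a ρ : ℝ} (h : 0 < ρ) : ¬{x : ℝ | |x - a| < ρ}.Countable := by
  intro k
  have : (Ioo (a - ρ) (a + ρ)).Countable := by
    refine Countable.mono ?_ k
    intro x hx
    show |x - a| < ρ
    exact abs_sub_lt_iff.2 ⟨by linarith [hx.2], by linarith [hx.1]⟩
  have e := this.measure_zero MeasureTheory.volume
  rw [Real.volume_Ioo, ENNReal.ofReal_eq_zero] at e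
  linarith

theorem pigeon {ρ : ℝ} (h : 0 < ρ) {J : Type} [Countable J] : ∀ (n : ℕ) (p : Fin n → ℝ)
    (S : J → Set (Fin n → ℝ)), (∀ y : Fin n → ℝ, (∀ i, |y i - p i| < ρ) → ∃ j, y ∈ S j) →
    ∃ j, Lg ρ n p (S j)
  | 0, p, S, k => (k p fun i => i.elim0).imp fun _ hj => ⟨p, hj⟩
  | n + 1, p, S, k => by
    by_contra c
    refine unc (a := p 0) h ((countable_iUnion fun j => not_not.1 (not_exists.1 c j)).mono
      fun x hx => ?_)
    obtain ⟨j, hj⟩ := pigeon h n (fun i => p i.succ)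
      (fun j => {y | (Fin.cons x y : Fin (n + 1) → ℝ) ∈ S j})
      fun y hy => k _ (Fin.cases hx hy)
    exact mem_iUnion.2 ⟨j, hx, hj⟩

theorem coe_cons {n : ℕ} (x : ℝ) (y : Fin n → ℝ) :
    (fun i => ((Fin.cons x y : Fin (n + 1) → ℝ) i : ℂ)) = Fin.cons (x : ℂ) fun i => (y i : ℂ) :=
  funext (Fin.cases rfl fun _ => rfl)

theorem fill {ρ : ℝ} (h : 0 < ρ) : ∀ (n : ℕ) (p : Fin n → ℝ) (S : Set (Fin n → ℝ))
    (A : Set (Cm n)), DiscAn (ball (fun i => (p i : ℂ)) ρ) A → Lg ρ n p S →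
    (∀ y ∈ S, (∀ i, |y i - p i| < ρ) → (fun i => (y i : ℂ)) ∈ A) →
    ball (fun i => (p i : ℂ)) ρ ⊆ A
  | 0, _, _, _, _, ⟨y, hy⟩, k => fun w _ =>
    (Subsingleton.elim (fun i => (y i : ℂ)) w) ▸ k y hy fun i => i.elim0
  | n + 1, p, S, A, hA, hS, k => fun w hw => by
    rw [← Fin.cons_self_tail w] at hw ⊢
    refine disc h hA ((mem_cons h).1 hw).2 (fun c => hS (Countable.mono ?_ c))
      ((mem_cons h).1 hw).1
    refine fun x hx => ⟨hx.1, ?_⟩
    refine fill h n _ _ _ (slice h hA (x := x) ?_) hx.2 (fun y hy b => ?_) ((mem_cons h).1 hw).2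
    · rw [← Complex.ofReal_sub, Complex.norm_real]
      exact hx.1
    · exact (congrArg (· ∈ A) (coe_cons x y)).mp (k _ hy (Fin.cases hx.1 b))

end BigH

open BigH

theorem big : BIG := by
  intro n p ρ h J _ A hA k
  obtain ⟨j, hj⟩ := pigeon h n (fun i => p i.succ) (fun j => {y | ¬{x : ℝ | |x - p 0| < ρ ∧
      (Fin.cons (x : ℂ) fun i => (y i : ℂ) : Cm (n + 1)) ∈ A j}.Countable}) fun y hy => by
    by_contra c
    refine unc (a := p 0) h (((k y hy).union (countable_iUnion fun j =>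
      not_not.1 (not_exists.1 c j))).mono fun x hx => ?_)
    by_cases b : ∀ j, (fun i => ((Fin.cons x y : Fin (n + 1) → ℝ) i : ℂ)) ∉ A j
    · exact Or.inl ⟨hx, b⟩
    · obtain ⟨j, b⟩ := not_forall.1 b
      exact Or.inr (mem_iUnion.2 ⟨j, hx, coe_cons x y ▸ not_not.1 b⟩)
  refine ⟨j, fun w hw => ?_⟩
  rw [← Fin.cons_self_tail w] at hw ⊢
  refine fill h n _ _ _ (slice h (hA j) ((mem_cons h).1 hw).1) hj (fun y hy b => ?_)
    ((mem_cons h).1 hw).2
  refine disc h (hA j) ((dist_pi_lt_iff h).2 fun i => ?_) hy ((mem_cons h).1 hw).1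
  rw [dist_eq_norm, ← Complex.ofReal_sub, Complex.norm_real]
  exact b i

end Vale.Agent.P301Z.Semi
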