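import Vale.Agent.P301Z.Semi.Defs2
import Vale.Agent.P301Z.Semi.Big

/-! # P301Z, block SEMI: uncountably many good points on every real line -/

open Filter Metric Set

noncomputable section

namespace Vale.Agent.P301Z.Semi

open Vale.Agent.P272.K BigH

theorem big2 : BIG2 := by
  intro n p ρ h J _ A hA k
  obtain ⟨j, hj⟩ := pigeon h n (fun i => p i.succ) (fun j => {y | ¬{x : ℝ | |x - p 0| < ρ ∧
      (Fin.cons (x : ℂ) fun i => (y i : ℂ) : Cm (n + 1)) ∈ A j}.Countable}) fun y hy => by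
    by_contra c
    refine k y hy ((countable_iUnion fun j => not_not.1 (not_exists.1 c j)).mono ?_)
    rintro x ⟨hx, j, b⟩
    exact mem_iUnion.2 ⟨j, hx, coe_cons x y ▸ b⟩
  refine ⟨j, fun w hw => ?_⟩
  rw [← Fin.cons_self_tail w] at hw ⊢
  refine fill h n _ _ _ (slice h (hA j) ((mem_cons h).1 hw).1) hj (fun y hy b => ?_)
    ((mem_cons h).1 hw).2
  refine disc h (hA j) ((dist_pi_lt_iff h).2 fun i => ?_) hy ((mem_cons h).1 hw).1
  rw [dist_eq_norm, ← Complex.ofReal_sub, Complex.norm_real]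
  exact b i

end Vale.Agent.P301Z.Semi
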