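import Vale.Agent.P301Z.Semi.Defs3

/-! # P301Z, block SEMI: sections as the kernel of a holomorphic family of linear maps -/

open scoped Manifold ContDiff Topology
open Filter Metric Set

set_option linter.all false

noncomputable section

namespace Vale.Agent.P301Z.Semi

open Vale.Agent.P272.K Vale.Agent.P301.H599 Vale.Agent.P301.H99

namespace Ce

variable {d b : ℕ} {Y : Cm b → Type} [∀ t, TopologicalSpace (Y t)]
  [∀ t, ChartedSpace (Cm d) (Y t)] {κ : Cm b → Type} {M : ∀ t, LineBundle d (Y t) (κ t)}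
  {n : ℕ} {B : Set (Cm b)} (D : CD Y κ M n B) (m : ℕ)

/-- the big balls -/
def Bl (a : Fin n) : Set (Cm d) := ball (D.z a) (8 * D.ρ a)

/-- bounded holomorphic functions on the big balls -/
def Sp : Submodule ℂ (Fin n → Cm d → ℂ) where
  carrier := {f | ∀ a, DifferentiableOn ℂ (f a) (Bl D a) ∧ ∃ c : ℝ, ∀ w ∈ Bl D a, ‖f a w‖ ≤ c}
  zero_mem' := fun a => ⟨differentiableOn_const 0, 0, fun w _ => by simp⟩
  add_mem' := fun {f g} hf hg a =>
    let ⟨c, hc⟩ := (hf a).2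
    let ⟨c', hc'⟩ := (hg a).2
    ⟨(hf a).1.add (hg a).1, c + c', fun w hw => norm_add_le_of_le (hc w hw) (hc' w hw)⟩
  smul_mem' := fun s f hf a =>
    let ⟨c, hc⟩ := (hf a).2
    ⟨(hf a).1.const_smul s, ‖s‖ * c, fun w hw => by
      rw [Pi.smul_apply, Pi.smul_apply, norm_smul]
      exact mul_le_mul_of_nonneg_left (hc w hw) (norm_nonneg _)⟩

/-- the points of the overlaps -/
def Qt : Type := {q : Fin n × Fin n × Cm d // q.2.2 ∈ D.Q q.1 q.2.1}

/-- the change of chart -/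
def T (t : Cm b) (a a' : Fin n) (w : Cm d) : Cm d := D.e t a' ((D.e t a).symm w)

/-- the change of frame -/
def g (t : Cm b) (a a' : Fin n) (w : Cm d) : ℂ :=
  (M t).g (D.i t a) (D.i t a') ((D.e t a).symm w) ^ m

/-- the coboundary -/
def Dt (t : Cm b) : Sp D →ₗ[ℂ] (Qt D → ℂ) where
  toFun f q := f.1 q.1.1 q.1.2.2 - g D m t q.1.1 q.1.2.1 q.1.2.2 *
    f.1 q.1.2.1 (T D t q.1.1 q.1.2.1 q.1.2.2)
  map_add' f f' := funext fun q => by simp; ring
  map_smul' s f := funext fun q => by simp; ring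

/-- the bound for the changes of frame -/
def Γ : ℝ := |D.G| ^ m

theorem Γ_nonneg : 0 ≤ Γ D m := pow_nonneg (abs_nonneg _) _

/-- a net -/
structure Net (S : Fin n → Set (Cm d)) : Prop where
  fin : ∀ a, (S a).Finite
  sub : ∀ a, S a ⊆ ball (D.z a) (2 * D.ρ a)
  cov : ∀ a, ∀ w ∈ ball (D.z a) (2 * D.ρ a), ∃ y ∈ S a, dist w y < D.ρ a / (Γ D m + 1)

theorem exists_net : ∃ S, Net D m S := by
  have h := fun a => finite_approx_of_totallyBounded
    ((isCompact_closedBall (D.z a) (2 * D.ρ a)).totallyBounded.subset ball_subset_closedBall)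
    (D.ρ a / (Γ D m + 1)) (div_pos (D.pos a) (by linarith [Γ_nonneg D m]))
  choose S h1 h2 h3 using h
  refine ⟨S, h2, h1, fun a w hw => ?_⟩
  obtain ⟨y, hy, h⟩ := mem_iUnion₂.1 (h3 a hw)
  exact ⟨y, hy, h⟩

/-- evaluation on the net -/
def ev (S : Fin n → Set (Cm d)) : Sp D →ₗ[ℂ] ((Σ a, S a) → ℂ) where
  toFun f p := f.1 p.1 p.2
  map_add' _ _ := rfl
  map_smul' _ _ := rfl

variable {D m} {S : Fin n → Set (Cm d)} {t : Cm b} {a a' : Fin n} {w : Cm d}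

theorem two_sub (a : Fin n) : ball (D.z a) (2 * D.ρ a) ⊆ Bl D a :=
  ball_subset_ball (by linarith [D.pos a])

theorem norm_g (ht : t ∈ B) (hw : w ∈ D.Q a a') : ‖g D m t a a' w‖ ≤ Γ D m := by
  rw [g, norm_pow]
  exact pow_le_pow_left₀ (norm_nonneg _) ((D.bdd t ht a a' w hw).trans (le_abs_self _)) _

theorem mem_Q (hw : w ∈ Bl D a) : ∃ a', w ∈ D.Q a a' :=
  let ⟨a', h1, h2⟩ := D.cover0 ((D.e 0 a).symm w)
  ⟨a', D.big a a' w hw h1 h2⟩

theorem T_mem (ht : t ∈ B) (hw : w ∈ D.Q a a') : T D t a a' w ∈ ball (D.z a') (2 * D.ρ a') :=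
  (D.src t ht a a' w hw).2

theorem exists_bound (f : Sp D) : ∃ c : ℝ, 0 ≤ c ∧ ∀ a, ∀ w ∈ Bl D a, ‖f.1 a w‖ ≤ c := by
  choose c hc using fun a => (f.2 a).2
  obtain ⟨C, hC⟩ := (finite_range c).bddAbove
  exact ⟨|C|, abs_nonneg _, fun a w hw => (hc a w hw).trans ((hC ⟨a, rfl⟩).trans (le_abs_self _))⟩

theorem norm_Dt (ht : t ∈ B) {f : Sp D} {c : ℝ} (h : ∀ a, ∀ w ∈ Bl D a, ‖f.1 a w‖ ≤ c)
    (q : Qt D) : ‖Dt D m t f q‖ ≤ (1 + Γ D m) * c := by
  refine (norm_sub_le _ _).trans ?_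
  rw [add_mul, one_mul, norm_mul]
  exact add_le_add (h _ _ (D.sub _ _ q.2)) (mul_le_mul (norm_g ht q.2)
    (h _ _ (two_sub _ (T_mem ht q.2))) (norm_nonneg _) (Γ_nonneg D m))

/-- the estimate -/
theorem est (hS : Net D m S) (ht : t ∈ B) {f : Sp D} {c c' : ℝ} (hc : 0 ≤ c) (hc' : 0 ≤ c')
    (h : ∀ q, ‖Dt D m t f q‖ ≤ c) (h' : ∀ p, ‖ev D S f p‖ ≤ c') :
    ∀ a, ∀ w ∈ Bl D a, ‖f.1 a w‖ ≤ 2 * (c + Γ D m * c') := by
  have hΓ := Γ_nonneg D m
  let U : Set ℝ := {N | 0 ≤ N ∧ ∀ a, ∀ w ∈ Bl D a, ‖f.1 a w‖ ≤ N}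
  have hne : U.Nonempty := exists_bound f
  have h0 : 0 ≤ sInf U := le_csInf hne fun N hN => hN.1
  have h1 : ∀ a, ∀ w ∈ Bl D a, ‖f.1 a w‖ ≤ sInf U := fun a w hw =>
    le_csInf hne fun N hN => hN.2 a w hw
  have h2 : c + Γ D m * c' + sInf U / 2 ∈ U := by
    refine ⟨by positivity, fun a w hw => ?_⟩
    obtain ⟨a', hq⟩ := mem_Q hw
    obtain ⟨y, hy, hd⟩ := hS.cov a' _ (T_mem ht hq)
    have hρ := D.pos a'
    have e4 : 8 * D.ρ a' / 4 = 2 * D.ρ a' := by ring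
    have h3 := P299.H720.lip_of_bdd (x := D.z a') (r := 8 * D.ρ a') (by positivity) (f.2 a').1
      (h1 a') (e4 ▸ hS.sub a' hy) (e4 ▸ T_mem ht hq)
    have h4 : 4 * sInf U / (8 * D.ρ a') * dist (T D t a a' w) y ≤ sInf U / (2 * (Γ D m + 1)) := by
      refine (mul_le_mul_of_nonneg_left hd.le (by positivity)).trans (le_of_eq ?_)
      field_simp
      ring
    have h5 : ‖f.1 a' (T D t a a' w)‖ ≤ c' + sInf U / (2 * (Γ D m + 1)) := by
      have h6 := norm_le_norm_add_norm_sub' (f.1 a' (T D t a a' w)) (f.1 a' y)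
      rw [dist_eq_norm] at h3
      have h7 : ‖f.1 a' y‖ ≤ c' := h' ⟨a', y, hy⟩
      linarith
    have h6 : ‖f.1 a w‖ ≤ c + Γ D m * (c' + sInf U / (2 * (Γ D m + 1))) := by
      have h7 : ‖f.1 a w - g D m t a a' w * f.1 a' (T D t a a' w)‖ ≤ c := h ⟨(a, a', w), hq⟩
      have h8 := norm_le_norm_add_norm_sub' (f.1 a w) (g D m t a a' w * f.1 a' (T D t a a' w))
      rw [norm_mul] at h8
      have h9 := mul_le_mul (norm_g (m := m) ht hq) h5 (norm_nonneg _) hΓ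
      linarith
    have h7 : Γ D m * (sInf U / (2 * (Γ D m + 1))) ≤ sInf U / 2 := by
      rw [← mul_div_assoc, div_le_div_iff₀ (by positivity) (by positivity)]
      nlinarith
    linarith [mul_add (Γ D m) c' (sInf U / (2 * (Γ D m + 1)))]
  have h3 := csInf_le ⟨0, fun N hN => hN.1⟩ h2
  exact fun a w hw => (h1 a w hw).trans (by linarith)

variable (D m S) in
/-- the parameters with approximate kernels -/
def A (k : ℕ) : Set (Cm b) := {t | ∃ v : Fin k → (Σ a, S a) → ℂ, LinearIndependent ℂ v ∧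
  ∀ j, ∀ ε : ℝ, 0 < ε → ∃ f, (∀ q, ‖Dt D m t f q‖ ≤ ε) ∧ ∀ p, ‖ev D S f p - v j p‖ ≤ ε}

theorem disc (h : CORE2) (hS : Net D m S) (k : ℕ) : DiscAn B (A D m S k) := by
  intro γ hγ hm
  have := fun a => (hS.fin a).fintype
  have hΓ := Γ_nonneg D m
  refine h (Sp D) (Qt D) (Σ a, S a) (ev D S) (fun s => Dt D m (γ s))
    ((1 + Γ D m) * (2 * (1 + Γ D m))) k (fun f q => ?_) (fun s hs f => ?_)
    fun s₀ hs₀ s hs f c hc h1 h2 q => ?_
  · exact (differentiableOn_const _).fun_sub ((((D.holg _ _ _ q.2).comp hγ hm).fun_pow m).fun_mul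
      ((f.2 _).1.comp ((D.hol _ _ _ q.2).comp hγ hm) fun s hs => two_sub _ (T_mem (hm hs) q.2)))
  · obtain ⟨c, -, hc⟩ := exists_bound f
    exact ⟨_, norm_Dt (hm hs) hc⟩
  · exact (norm_Dt (hm hs) (est hS (hm hs₀) hc hc h1 h2) q).trans (le_of_eq (by ring))

/-- limits of approximate solutions -/
theorem limit (hS : Net D m S) (ht : t ∈ B) {v : (Σ a, S a) → ℂ}
    (h : ∀ ε : ℝ, 0 < ε → ∃ f, (∀ q, ‖Dt D m t f q‖ ≤ ε) ∧ ∀ p, ‖ev D S f p - v p‖ ≤ ε) :
    ∃ f : Sp D, Dt D m t f = 0 ∧ ev D S f = v := by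
  have := fun a => (hS.fin a).fintype
  choose f h1 h2 using fun ν : ℕ => h (1 / ((ν : ℝ) + 1)) Nat.one_div_pos_of_nat
  have h3 : ∀ ν : ℕ, 1 / ((ν : ℝ) + 1) ≤ 1 := fun ν =>
    (div_le_one (by positivity)).2 (by linarith [Nat.cast_nonneg (α := ℝ) ν])
  have h4 := fun ν => est hS ht (f := f ν) (c := 1) (c' := ‖v‖ + 1) zero_le_one (by positivity)
    (fun q => (h1 ν q).trans (h3 ν)) fun p => (norm_le_norm_add_norm_sub' _ (v p)).trans
      (add_le_add (norm_le_pi_norm v p) ((h2 ν p).trans (h3 ν)))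
  let U : Ultrafilter ℕ := Ultrafilter.of atTop
  have hU : (U : Filter ℕ) ≤ atTop := Ultrafilter.of_le _
  have h5 := fun a => P299.H720.montel_full U (f := fun ν => (f ν).1 a) (U := Bl D a) isOpen_ball
    fun x hx => by
      obtain ⟨r, hr, hs⟩ := Metric.isOpen_iff.1 isOpen_ball x hx
      exact ⟨r, hr, _, .of_forall fun ν => ⟨((f ν).2 a).1.mono hs, fun y hy => h4 ν a y (hs hy)⟩⟩
  choose F hF hl _ using h5
  have h6 : ∀ a, ∀ w ∈ Bl D a, Tendsto (fun ν => (f ν).1 a w) U (𝓝 (F a w)) := fun a w hw =>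
    (hl a).tendsto_at hw
  have h7 : Tendsto (fun ν : ℕ => 1 / ((ν : ℝ) + 1)) U (𝓝 0) :=
    tendsto_one_div_add_atTop_nhds_zero_nat.mono_left hU
  refine ⟨⟨F, fun a => ⟨hF a, _, fun w hw => le_of_tendsto' (h6 a w hw).norm fun ν => h4 ν a w hw⟩⟩,
    funext fun q => ?_, funext fun p => ?_⟩
  · exact tendsto_nhds_unique ((h6 _ _ (D.sub _ _ q.2)).sub ((h6 _ _ (two_sub _
      (T_mem ht q.2))).const_mul _)) (squeeze_zero_norm (fun ν => h1 ν q) h7)
  · exact sub_eq_zero.1 (tendsto_nhds_unique ((h6 _ _ (two_sub _ (hS.sub _ p.2.2))).sub_const _)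
      (squeeze_zero_norm (fun ν => h2 ν p) h7))

variable [∀ t, IsManifold 𝓘(ℂ, Cm d) ω (Y t)]

/-- the functions of a section -/
theorem of_sec (ht : t ∈ B) {s : κ t → Y t → ℂ} (hs : Sec (M t) m s) :
    ∃ f : Sp D, Dt D m t f = 0 ∧ ∀ a w, f.1 a w = s (D.i t a) ((D.e t a).symm w) := by
  have h1 : ∀ a, DifferentiableOn ℂ (fun w => s (D.i t a) ((D.e t a).symm w)) (Bl D a) := by
    intro a w hw
    obtain ⟨k1, k2⟩ := D.tgt t ht a w hw
    have h := analytic_of_at (fun c hc => hs.1 _ c _ hc k2) (D.chart t ht a)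
      ((D.e t a).map_target k1)
    rw [(D.e t a).right_inv k1] at h
    exact h.differentiableAt.differentiableWithinAt
  have h2 : ∀ a a', ∀ w ∈ D.Q a a', s (D.i t a) ((D.e t a).symm w) =
      g D m t a a' w * s (D.i t a') ((D.e t a').symm (T D t a a' w)) := by
    intro a a' w hw
    have k1 := (D.tgt t ht a' _ (two_sub _ (T_mem ht hw))).2
    have k2 : (D.e t a').symm (T D t a a' w) = (D.e t a).symm w :=
      (D.e t a').left_inv (D.src t ht a a' w hw).1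
    rw [k2] at k1 ⊢
    exact hs.2 _ _ _ (D.tgt t ht a w (D.sub _ _ hw)).2 k1
  have h3 : ∀ a, ∃ c : ℝ, ∀ w ∈ closedBall (D.z a) (2 * D.ρ a),
      ‖s (D.i t a) ((D.e t a).symm w)‖ ≤ c := fun a =>
    (isCompact_closedBall _ _).exists_bound_of_continuousOn
      ((h1 a).continuousOn.mono (closedBall_subset_ball (by linarith [D.pos a])))
  choose c hc using h3
  obtain ⟨C, hC⟩ := (finite_range c).bddAbove
  refine ⟨⟨fun a w => s (D.i t a) ((D.e t a).symm w), fun a => ⟨h1 a, Γ D m * C, fun w hw => ?_⟩⟩,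
    funext fun q => sub_eq_zero.2 (h2 _ _ _ q.2), fun _ _ => rfl⟩
  obtain ⟨a', hq⟩ := mem_Q hw
  show ‖s (D.i t a) ((D.e t a).symm w)‖ ≤ _
  rw [h2 a a' w hq, norm_mul]
  exact mul_le_mul (norm_g ht hq) ((hc a' _ (ball_subset_closedBall (T_mem ht hq))).trans
    (hC ⟨a', rfl⟩)) (norm_nonneg _) (Γ_nonneg D m)

theorem mem_A (hS : Net D m S) (ht : t ∈ B) {k : ℕ} (h : H0 (M t) m k) : t ∈ A D m S k := by
  obtain ⟨s, hs, hi⟩ := h
  choose f h1 h2 using fun j => of_sec (D := D) ht (hs j)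
  refine ⟨fun j => ev D S (f j), Fintype.linearIndependent_iff.2 fun c hc => ?_,
    fun j ε hε => ⟨f j, fun q => by simp [h1 j, hε.le], fun p => by simp [hε.le]⟩⟩
  have h3 := est hS ht (f := ∑ j, c j • f j) le_rfl le_rfl
    (fun q => by simp [map_sum, h1]) fun p => by
      simp only [map_sum, map_smul, hc, Pi.zero_apply, norm_zero, le_refl]
  refine fun j => congrFun (hi c fun i x hx => ?_) j
  obtain ⟨a, k1, k2⟩ := D.cover t ht x
  have k3 := (D.tgt t ht a _ (two_sub _ k2)).2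
  have k4 := h3 a _ (two_sub _ k2)
  rw [(D.e t a).left_inv k1] at k3
  simp only [mul_zero, add_zero, norm_le_zero_iff, Submodule.coe_sum, Submodule.coe_smul,
    Finset.sum_apply, Pi.smul_apply, smul_eq_mul, h2, (D.e t a).left_inv k1] at k4
  have k5 : ∑ j, c j * s j i x = (M t).g i (D.i t a) x ^ m * ∑ j, c j * s j (D.i t a) x := by
    rw [Finset.mul_sum]
    exact Finset.sum_congr rfl fun j _ => by rw [(hs j).2 i (D.i t a) x hx k3]; ring
  rw [k5, k4, mul_zero]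

/-- the section of a solution -/
theorem to_sec (h0 : (0 : Cm b) ∈ B) {f : Sp D} (hf : Dt D m 0 f = 0) :
    ∃ s : κ 0 → Y 0 → ℂ, Sec (M 0) m s ∧ ∀ i a y, y ∈ (M 0).U i → y ∈ (D.e 0 a).source →
      D.e 0 a y ∈ Bl D a → s i y = (M 0).g i (D.i 0 a) y ^ m * f.1 a (D.e 0 a y) := by
  choose c h1 h2 using D.cover0
  have hU : ∀ a y, y ∈ (D.e 0 a).source → D.e 0 a y ∈ Bl D a → y ∈ (M 0).U (D.i 0 a) := by
    intro a y k1 k2
    have k3 := (D.tgt 0 h0 a _ k2).2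
    rwa [(D.e 0 a).left_inv k1] at k3
  have h3 : ∀ y, D.e 0 (c y) y ∈ Bl D (c y) := fun y =>
    ball_subset_ball (by linarith [D.pos (c y)]) (h2 y)
  have key : ∀ i a y, y ∈ (M 0).U i → y ∈ (D.e 0 a).source → D.e 0 a y ∈ Bl D a →
      (M 0).g i (D.i 0 (c y)) y ^ m * f.1 (c y) (D.e 0 (c y) y) =
        (M 0).g i (D.i 0 a) y ^ m * f.1 a (D.e 0 a y) := by
    intro i a y hi k1 k2
    have k3 := (D.e 0 a).left_inv k1
    have k4 : D.e 0 a y ∈ D.Q a (c y) := D.big a (c y) _ k2 (k3.symm ▸ h1 y) (k3.symm ▸ h2 y)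
    have k5 : f.1 a (D.e 0 a y) = g D m 0 a (c y) (D.e 0 a y) *
        f.1 (c y) (T D 0 a (c y) (D.e 0 a y)) := sub_eq_zero.1 (congrFun hf ⟨(a, c y, _), k4⟩)
    rw [k5, g, T, k3, ← mul_assoc, ← mul_pow,
      (M 0).cocycle _ _ _ y hi (hU a y k1 k2) (hU _ y (h1 y) (h3 y))]
  refine ⟨fun i y => (M 0).g i (D.i 0 (c y)) y ^ m * f.1 (c y) (D.e 0 (c y) y),
    ⟨fun i e x hx hi => ?_, fun i j x hi hj => ?_⟩, key⟩
  · have k1 : AnalyticAt ℂ (fun z => f.1 (c x) (D.e 0 (c x) (e.symm z))) (e x) := by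
      refine analytic_max (f := fun y => f.1 (c x) (D.e 0 (c x) y))
        (IsManifold.subset_maximalAtlas hx.1) (D.chart 0 h0 (c x)) hx.2 (h1 x) ?_
      refine (P268.analyticAt_of_differentiableOn isOpen_ball (f.2 (c x)).1 (h3 x)).congr ?_
      filter_upwards [(D.e 0 (c x)).open_target.mem_nhds ((D.e 0 (c x)).map_source (h1 x))]
        with z hz
      rw [(D.e 0 (c x)).right_inv hz]
    refine ((((M 0).holo i _ e x hx hi (hU _ x (h1 x) (h3 x))).fun_pow m).fun_mul k1).congr ?_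
    have k2 : ∀ᶠ y in 𝓝 x, y ∈ (M 0).U i ∧ y ∈ (D.e 0 (c x)).source ∧
        D.e 0 (c x) y ∈ Bl D (c x) :=
      (((M 0).isOpen i).eventually_mem hi).and (((D.e 0 (c x)).open_source.eventually_mem
        (h1 x)).and (((D.e 0 (c x)).continuousAt (h1 x)).eventually (isOpen_ball.mem_nhds (h3 x))))
    have k3 : Tendsto e.symm (𝓝 (e x)) (𝓝 x) := by
      have k4 := (e.continuousAt_symm (e.map_source hx.2)).tendsto
      rwa [e.left_inv hx.2] at k4
    filter_upwards [k3.eventually k2] with z hz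
    exact (key i (c x) _ hz.1 hz.2.1 hz.2.2).symm
  · simp only
    rw [← mul_assoc, ← mul_pow, (M 0).cocycle _ _ _ x hi hj (hU _ x (h1 x) (h3 x))]

theorem of_A (hS : Net D m S) (h0 : (0 : Cm b) ∈ B) {k : ℕ} (h : (0 : Cm b) ∈ A D m S k) :
    H0 (M 0) m k := by
  obtain ⟨v, hv, h⟩ := h
  choose f h1 h2 using fun j => limit hS h0 (h j)
  choose s h3 h4 using fun j => to_sec h0 (h1 j)
  refine ⟨s, h3, fun c hc => funext (Fintype.linearIndependent_iff.1 hv c (funext fun p => ?_))⟩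
  obtain ⟨a, w, hw⟩ := p
  have k0 := two_sub a (hS.sub a hw)
  obtain ⟨k1, k2⟩ := D.tgt 0 h0 a w k0
  have k3 := (D.e 0 a).right_inv k1
  have k4 := hc _ _ k2
  simp only [h4 _ _ a _ k2 ((D.e 0 a).map_target k1) (k3.symm ▸ k0), k3] at k4
  have k5 : (M 0).g (D.i 0 a) (D.i 0 a) ((D.e 0 a).symm w) ^ m * ∑ j, c j * (f j).1 a w = 0 := by
    rw [← k4, Finset.mul_sum]
    exact Finset.sum_congr rfl fun j _ => by ring
  have k6 := (mul_eq_zero.1 k5).resolve_left (pow_ne_zero _ ((M 0).ne_zero _ _ _ k2 k2))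
  simp only [Finset.sum_apply, Pi.smul_apply, smul_eq_mul, ← h2, Pi.zero_apply]
  exact k6

end Ce

theorem cech_of (h : CORE2) : CECH := by
  intro d b Y _ _ _ κ M n B h0 D m k
  obtain ⟨S, hS⟩ := Ce.exists_net D m
  exact ⟨Ce.A D m S k, Ce.disc h hS k, fun t ht => Ce.mem_A hS ht, Ce.of_A hS h0⟩

end Vale.Agent.P301Z.Semi
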