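import Mathlib.Analysis.Complex.Schwarz
import Mathlib.Analysis.Complex.RemovableSingularity
import Mathlib.Analysis.Complex.LocallyUniformLimit
import Mathlib.Analysis.Normed.Module.HahnBanach
import Mathlib.Analysis.Normed.Lp.lpSpace
import Mathlib.Analysis.LocallyConvex.SeparatingDual

/-! # Holomorphic families of functionals which vanish on the ranges of a holomorphic family -/

open scoped Topology ENNReal
open Filter Metric Set

set_option linter.all false

noncomputable section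

namespace Vale.Agent.P301Z.Semi

section abs

variable {E G : Type} [AddCommGroup E] [Module ℂ E] [NormedAddCommGroup G] [NormedSpace ℂ G]

lemma solve (A : E →ₗ[ℂ] G) (x : E →ₗ[ℂ] ℂ) {c : ℝ} (hc : 0 ≤ c) (h : ∀ f, ‖x f‖ ≤ c * ‖A f‖) :
    ∃ y : G →L[ℂ] ℂ, ‖y‖ ≤ c ∧ ∀ f, y (A f) = x f := by
  have hk : LinearMap.ker A ≤ LinearMap.ker x := by
    intro f hf
    have h1 := h f
    rw [LinearMap.mem_ker.1 hf, norm_zero, mul_zero] at h1
    exact LinearMap.mem_ker.2 (norm_le_zero_iff.1 h1)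
  let x' : LinearMap.range A →ₗ[ℂ] ℂ :=
    ((LinearMap.ker A).liftQ x hk).comp (A.quotKerEquivRange.symm : _ →ₗ[ℂ] _)
  have hx' : ∀ f, x' ⟨A f, LinearMap.mem_range_self A f⟩ = x f := by
    intro f
    show (LinearMap.ker A).liftQ x hk (A.quotKerEquivRange.symm ⟨A f, _⟩) = x f
    rw [LinearMap.quotKerEquivRange_symm_apply_image]
    rfl
  have hb : ∀ g : LinearMap.range A, ‖x' g‖ ≤ c * ‖g‖ := by
    rintro ⟨g, f, rfl⟩
    rw [hx']
    exact h f
  obtain ⟨y, hy, hn⟩ := exists_extension_norm_eq (LinearMap.range A) (x'.mkContinuous c hb)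
  refine ⟨y, hn.le.trans (x'.mkContinuous_norm_le hc hb), fun f => ?_⟩
  have h1 := hy ⟨A f, LinearMap.mem_range_self A f⟩
  exact h1.trans (hx' f)

variable (T : ℂ → E →ₗ[ℂ] G) (s₀ : ℂ) (R : ℝ)

/-- the state of the recursion -/
structure St (M : ℝ) (r : ℂ → E → ℂ) (y : G →L[ℂ] ℂ) : Prop where
  hol : ∀ f, DifferentiableOn ℂ (fun s => r s f) (ball s₀ R)
  lin : ∀ s ∈ ball s₀ R, IsLinearMap ℂ (r s)
  bd : ∀ s ∈ ball s₀ R, ∀ f, ‖r s f‖ ≤ M * ‖T s₀ f‖
  ny : ‖y‖ ≤ M
  van : ∀ f, r s₀ f + y (T s₀ f) = 0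

variable {T s₀ R}

lemma dslope_lin {u : ℂ → E → ℂ} (hR : 0 < R)
    (hd : ∀ f, DifferentiableOn ℂ (fun s => u s f) (ball s₀ R))
    (hl : ∀ s ∈ ball s₀ R, IsLinearMap ℂ (u s)) {s : ℂ} (hs : s ∈ ball s₀ R) :
    IsLinearMap ℂ fun f => dslope (fun s => u s f) s₀ s := by
  have h0 : s₀ ∈ ball s₀ R := mem_ball_self hR
  have hn : ball s₀ R ∈ 𝓝 s₀ := ball_mem_nhds _ hR
  rcases eq_or_ne s s₀ with rfl | hne
  · constructor
    · intro f g
      simp only [dslope_same]
      rw [← deriv_fun_add ((hd f).differentiableAt hn) ((hd g).differentiableAt hn)]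
      refine Filter.EventuallyEq.deriv_eq ?_
      filter_upwards [hn] with t ht
      exact (hl t ht).map_add f g
    · intro c f
      simp only [dslope_same]
      rw [smul_eq_mul, ← deriv_const_mul c ((hd f).differentiableAt hn)]
      refine Filter.EventuallyEq.deriv_eq ?_
      filter_upwards [hn] with t ht
      exact (hl t ht).map_smul c f
  · constructor
    · intro f g
      simp only [dslope_of_ne _ hne, slope_def_field, (hl s hs).map_add, (hl s₀ h0).map_add]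
      ring
    · intro c f
      simp only [dslope_of_ne _ hne, slope_def_field, (hl s hs).map_smul, (hl s₀ h0).map_smul,
        smul_eq_mul]
      ring

lemma St.step {C M : ℝ} (hR : 0 < R) (hC : 0 ≤ C)
    (hd : ∀ f, DifferentiableOn ℂ (fun s => T s f) (ball s₀ R))
    (hb : ∀ s ∈ ball s₀ R, ∀ f, ‖T s f‖ ≤ C * ‖T s₀ f‖) {r : ℂ → E → ℂ} {y : G →L[ℂ] ℂ}
    (h : St T s₀ R M r y) :
    ∃ (r' : ℂ → E → ℂ) (y' : G →L[ℂ] ℂ), St T s₀ R ((1 + C) / R * M) r' y' ∧
      ∀ s f, r s f + y (T s f) = (s - s₀) * r' s f := by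
  have hM : 0 ≤ M := (norm_nonneg y).trans h.ny
  have h0 : s₀ ∈ ball s₀ R := mem_ball_self hR
  have hn : ball s₀ R ∈ 𝓝 s₀ := ball_mem_nhds _ hR
  let u : ℂ → E → ℂ := fun s f => r s f + y (T s f)
  have hu : ∀ f, DifferentiableOn ℂ (fun s => u s f) (ball s₀ R) := fun f =>
    (h.hol f).add (y.differentiable.comp_differentiableOn (hd f))
  have hl : ∀ s ∈ ball s₀ R, IsLinearMap ℂ (u s) := by
    intro s hs
    constructor
    · intro f g
      simp only [u, (h.lin s hs).map_add, map_add]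
      ring
    · intro c f
      simp only [u, (h.lin s hs).map_smul, map_smul, smul_eq_mul]
      ring
  let r' : ℂ → E → ℂ := fun s f => dslope (fun s => u s f) s₀ s
  have hb' : ∀ s ∈ ball s₀ R, ∀ f, ‖r' s f‖ ≤ (1 + C) / R * M * ‖T s₀ f‖ := by
    intro s hs f
    have h1 := Complex.norm_dslope_le_div_of_mapsTo_ball (R₂ := (1 + C) * M * ‖T s₀ f‖) (hu f)
      (fun t ht => ?_) hs
    · refine h1.trans (le_of_eq ?_)
      ring
    · have h2 : u s₀ f = 0 := h.van f
      rw [mem_closedBall, h2, dist_zero_right]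
      have h3 := h.bd t ht f
      have h4 : ‖y (T t f)‖ ≤ M * (C * ‖T s₀ f‖) :=
        (y.le_opNorm _).trans (mul_le_mul h.ny (hb t ht f) (norm_nonneg _) hM)
      refine (norm_add_le _ _).trans ?_
      nlinarith
  have hl' : ∀ s ∈ ball s₀ R, IsLinearMap ℂ (r' s) := fun s hs => dslope_lin hR hu hl hs
  obtain ⟨y', hy', hy''⟩ := solve (T s₀) (-(IsLinearMap.mk' (r' s₀) (hl' s₀ h0)))
    (c := (1 + C) / R * M) (by positivity) (fun f => by
      rw [LinearMap.neg_apply, norm_neg]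
      exact hb' s₀ h0 f)
  refine ⟨r', y', ⟨fun f => (Complex.differentiableOn_dslope hn).2 (hu f), hl', hb', hy', ?_⟩, ?_⟩
  · intro f
    rw [hy'', LinearMap.neg_apply]
    exact add_neg_cancel _
  · intro s f
    have h1 := sub_smul_dslope (fun s => u s f) s₀ s
    have h2 : u s₀ f = 0 := h.van f
    rw [h2, sub_zero, smul_eq_mul] at h1
    exact h1.symm

theorem lift {C : ℝ} (hR : 0 < R) (hC : 0 ≤ C)
    (hd : ∀ f, DifferentiableOn ℂ (fun s => T s f) (ball s₀ R))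
    (hb : ∀ s ∈ ball s₀ R, ∀ f, ‖T s f‖ ≤ C * ‖T s₀ f‖) (y₀ : G →L[ℂ] ℂ)
    (hy : ∀ f, y₀ (T s₀ f) = 0) :
    ∃ y : ℂ → G → ℂ, (∀ g, y s₀ g = y₀ g) ∧
      (∀ g, DifferentiableOn ℂ (fun s => y s g) (ball s₀ (R / (2 * (1 + C))))) ∧
      (∀ s ∈ ball s₀ (R / (2 * (1 + C))), IsLinearMap ℂ (y s)) ∧
      (∀ s ∈ ball s₀ (R / (2 * (1 + C))), ∀ g, ‖y s g‖ ≤ 2 * (‖y₀‖ * ‖g‖)) ∧
      ∀ s ∈ ball s₀ (R / (2 * (1 + C))), ∀ f, y s (T s f) = 0 := by
  set K : ℝ := (1 + C) / R with hK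
  have hK0 : 0 < K := by positivity
  let S : Type := {p : ℝ × (ℂ → E → ℂ) × (G →L[ℂ] ℂ) // St T s₀ R p.1 p.2.1 p.2.2}
  have hst : ∀ p : S, ∃ p' : S, p'.1.1 = K * p.1.1 ∧
      ∀ s f, p.1.2.1 s f + p.1.2.2 (T s f) = (s - s₀) * p'.1.2.1 s f := by
    intro p
    obtain ⟨r', y', h1, h2⟩ := p.2.step hR hC hd hb
    exact ⟨⟨(K * p.1.1, r', y'), h1⟩, rfl, h2⟩
  choose F hF1 hF2 using hst
  let p₀ : S := ⟨(‖y₀‖, fun _ _ => 0, y₀), ⟨fun _ => differentiableOn_const _,
    fun _ _ => ⟨fun _ _ => by simp, fun _ _ => by simp⟩,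
    fun _ _ f => by rw [norm_zero]; positivity, le_rfl, fun f => by rw [zero_add]; exact hy f⟩⟩
  let p : ℕ → S := fun n => F^[n] p₀
  have hp : ∀ n, p (n + 1) = F (p n) := fun n => Function.iterate_succ_apply' F n p₀
  have hM : ∀ n, (p n).1.1 = K ^ n * ‖y₀‖ := by
    intro n
    induction n with
    | zero => simp [p, p₀]
    | succ n ih => rw [hp, hF1, ih]; ring
  have hsum : ∀ s f n, ∑ j ∈ Finset.range n, (s - s₀) ^ j * (p j).1.2.2 (T s f) =
      (s - s₀) ^ n * (p n).1.2.1 s f := by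
    intro s f n
    induction n with
    | zero => simp [p, p₀]
    | succ n ih => rw [Finset.sum_range_succ, ih, hp, pow_succ, mul_assoc, ← hF2]; ring
  have hsm : ∀ s ∈ ball s₀ (R / (2 * (1 + C))), ‖s - s₀‖ * K ≤ 1 / 2 := by
    intro s hs
    rw [mem_ball, dist_eq_norm] at hs
    have h1 : R / (2 * (1 + C)) * K = 1 / 2 := by
      rw [hK]
      field_simp
    rw [← h1]
    exact mul_le_mul_of_nonneg_right hs.le hK0.le
  have hsub : ball s₀ (R / (2 * (1 + C))) ⊆ ball s₀ R := by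
    refine ball_subset_ball ?_
    rw [div_le_iff₀ (by positivity)]
    nlinarith
  have hpw : ∀ s ∈ ball s₀ (R / (2 * (1 + C))), ∀ n, ‖s - s₀‖ ^ n * (K ^ n * ‖y₀‖) ≤
      (1 / 2) ^ n * ‖y₀‖ := by
    intro s hs n
    rw [← mul_assoc, ← mul_pow]
    exact mul_le_mul_of_nonneg_right (pow_le_pow_left₀ (by positivity) (hsm s hs) n) (norm_nonneg _)
  have hterm : ∀ g n, ∀ s ∈ ball s₀ (R / (2 * (1 + C))),
      ‖(s - s₀) ^ n * (p n).1.2.2 g‖ ≤ (1 / 2) ^ n * (‖y₀‖ * ‖g‖) := by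
    intro g n s hs
    have h1 : ‖(p n).1.2.2 g‖ ≤ K ^ n * ‖y₀‖ * ‖g‖ := by
      refine (ContinuousLinearMap.le_opNorm _ _).trans ?_
      rw [← hM]
      exact mul_le_mul_of_nonneg_right (p n).2.ny (norm_nonneg _)
    rw [norm_mul, norm_pow]
    refine (mul_le_mul_of_nonneg_left h1 (by positivity)).trans ?_
    rw [← mul_assoc, ← mul_assoc ((1 / 2 : ℝ) ^ n)]
    exact mul_le_mul_of_nonneg_right (hpw s hs n) (norm_nonneg g)
  have hgeo : ∀ a : ℝ, Summable fun n : ℕ => (1 / 2 : ℝ) ^ n * a := fun a =>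
    summable_geometric_two.mul_right a
  have hsu : ∀ g, ∀ s ∈ ball s₀ (R / (2 * (1 + C))),
      Summable fun n => (s - s₀) ^ n * (p n).1.2.2 g := fun g s hs =>
    Summable.of_norm_bounded (hgeo _) fun n => hterm g n s hs
  refine ⟨fun s g => ∑' n, (s - s₀) ^ n * (p n).1.2.2 g, fun g => ?_, fun g => ?_, fun s hs => ?_,
    fun s hs g => ?_, fun s hs f => ?_⟩
  · show ∑' n, (s₀ - s₀) ^ n * (p n).1.2.2 g = y₀ g
    rw [tsum_eq_single 0]
    · simp [p, p₀]
    · intro n hn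
      rw [sub_self, zero_pow hn, zero_mul]
  · refine Complex.differentiableOn_tsum_of_summable_norm (hgeo (‖y₀‖ * ‖g‖)) (fun n => ?_)
      isOpen_ball fun n s hs => hterm g n s hs
    fun_prop
  · constructor
    · intro g g'
      rw [← (hsu g s hs).tsum_add (hsu g' s hs)]
      refine tsum_congr fun n => ?_
      rw [map_add, mul_add]
    · intro c g
      rw [smul_eq_mul, ← tsum_mul_left]
      refine tsum_congr fun n => ?_
      rw [map_smul, smul_eq_mul]
      ring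
  · exact tsum_of_norm_bounded (hasSum_geometric_two.mul_right (‖y₀‖ * ‖g‖))
      fun n => hterm g n s hs
  · have h1 := (hsu (T s f) s hs).hasSum.tendsto_sum_nat
    simp only [hsum] at h1
    refine tendsto_nhds_unique h1 ?_
    refine squeeze_zero_norm (a := fun n => (1 / 2 : ℝ) ^ n * (‖y₀‖ * ‖T s₀ f‖)) (fun n => ?_)
      (hgeo _).tendsto_atTop_zero
    have h2 := (p n).2.bd s (hsub hs) f
    rw [hM] at h2
    rw [norm_mul, norm_pow]
    refine (mul_le_mul_of_nonneg_left h2 (by positivity)).trans ?_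
    rw [← mul_assoc, ← mul_assoc ((1 / 2 : ℝ) ^ n)]
    exact mul_le_mul_of_nonneg_right (hpw s hs n) (norm_nonneg (T s₀ f))

end abs

/-- a bounded family of holomorphic functions is a holomorphic map to the space of bounded
families -/
theorem strong {I : Type} {H : ℂ → lp (fun _ : I => ℂ) ∞} {U : Set ℂ} (hU : IsOpen U) {M : ℝ}
    (hd : ∀ i, DifferentiableOn ℂ (fun s => H s i) U) (hb : ∀ s ∈ U, ‖H s‖ ≤ M) :
    DifferentiableOn ℂ H U := by
  intro c hc
  obtain ⟨r, hr, hrU⟩ := Metric.isOpen_iff.1 hU c hc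
  have hM : 0 ≤ M := (norm_nonneg _).trans (hb c hc)
  have hn : ball c r ∈ 𝓝 c := ball_mem_nhds _ hr
  have hb' : ∀ s ∈ ball c r, ∀ i, ‖H s i‖ ≤ M := fun s hs i =>
    (lp.norm_apply_le_norm ENNReal.top_ne_zero (H s) i).trans (hb s (hrU hs))
  have h1 : ∀ i, ∀ s ∈ ball c r, ‖dslope (fun s => H s i) c s‖ ≤ 2 * M / r := by
    intro i s hs
    refine Complex.norm_dslope_le_div_of_mapsTo_ball ((hd i).mono hrU) (fun t ht => ?_) hs
    rw [mem_closedBall, dist_eq_norm]
    refine (norm_sub_le _ _).trans ?_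
    have := hb' t ht i
    have := hb' c (mem_ball_self hr) i
    linarith
  have h2 : ∀ i, ∀ s ∈ ball c r, ‖dslope (fun s => H s i) c s - dslope (fun s => H s i) c c‖ ≤
      2 * (2 * M / r) / r * ‖s - c‖ := by
    intro i s hs
    rw [← dist_eq_norm, ← dist_eq_norm]
    refine Complex.dist_le_div_mul_dist_of_mapsTo_ball
      ((Complex.differentiableOn_dslope hn).2 ((hd i).mono hrU)) (fun t ht => ?_) hs
    rw [mem_closedBall, dist_eq_norm]
    refine (norm_sub_le _ _).trans ?_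
    have := h1 i t ht
    have := h1 i c (mem_ball_self hr)
    linarith
  let H' : lp (fun _ : I => ℂ) ∞ := ⟨fun i => dslope (fun s => H s i) c c, memℓp_infty
    ⟨2 * M / r, by rintro _ ⟨i, rfl⟩; exact h1 i c (mem_ball_self hr)⟩⟩
  have h3 : ∀ s ∈ ball c r, ‖H s - H c - (s - c) • H'‖ ≤
      2 * (2 * M / r) / r * ‖s - c‖ * ‖s - c‖ := by
    intro s hs
    refine lp.norm_le_of_forall_le (by positivity) fun i => ?_
    have h4 : (H s - H c - (s - c) • H') i =
        (dslope (fun s => H s i) c s - dslope (fun s => H s i) c c) * (s - c) := by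
      have h5 := sub_smul_dslope (fun s => H s i) c s
      rw [smul_eq_mul] at h5
      show H s i - H c i - (s - c) * dslope (fun s => H s i) c c = _
      rw [← h5]
      ring
    rw [h4, norm_mul]
    exact mul_le_mul_of_nonneg_right (h2 i s hs) (norm_nonneg _)
  refine (HasDerivAt.differentiableAt (f' := H') ?_).differentiableWithinAt
  rw [hasDerivAt_iff_isLittleO, Asymptotics.isLittleO_iff]
  intro ε hε
  have h6 : Tendsto (fun s : ℂ => 2 * (2 * M / r) / r * ‖s - c‖) (𝓝 c) (𝓝 0) := by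
    have h7 : Continuous fun s : ℂ => 2 * (2 * M / r) / r * ‖s - c‖ := by fun_prop
    simpa using h7.tendsto c
  filter_upwards [hn, h6.eventually (ge_mem_nhds hε)] with s hs h8
  exact (h3 s hs).trans (mul_le_mul_of_nonneg_right h8 (norm_nonneg _))

end Vale.Agent.P301Z.Semi
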