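import Vale.Agent.P301Z.Semi.Defs3
import Vale.Agent.P301Z.Semi.Lift
import Mathlib.Analysis.Analytic.IsolatedZeros
import Mathlib.Analysis.Complex.CauchyIntegral

/-! # P301Z, block SEMI: kernels of holomorphic families of linear maps -/

open scoped Topology ENNReal
open Filter Metric Set Module

set_option linter.all false

noncomputable section

namespace Vale.Agent.P301Z.Semi

lemma zeros_countable {f : ℂ → ℂ} {c : ℂ} {r : ℝ} (hr : 0 < r)
    (hf : DifferentiableOn ℂ f (ball c r)) (h0 : f c ≠ 0) :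
    (ball c r ∩ {s | f s = 0}).Countable := by
  have ha : AnalyticOnNhd ℂ f (ball c r) := hf.analyticOnNhd isOpen_ball
  have h1 : ∀ x ∈ ball c r ∩ {s | f s = 0}, ({x} : Set ℂ) ∈ 𝓝[ball c r ∩ {s | f s = 0}] x := by
    intro x hx
    rcases (ha x hx.1).eventually_eq_zero_or_eventually_ne_zero with h | h
    · exact absurd (ha.eqOn_zero_of_preconnected_of_eventuallyEq_zero
        (convex_ball c r).isPreconnected hx.1 h (mem_ball_self hr)) h0
    · rw [eventually_nhdsWithin_iff] at h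
      rw [mem_nhdsWithin_iff_eventually]
      filter_upwards [h] with y hy hy'
      by_contra hne
      exact hy hne hy'.2
  obtain ⟨t, -, ht, h2⟩ := TopologicalSpace.countable_cover_nhdsWithin h1
  exact (ht.biUnion fun x _ => countable_singleton x).mono h2

lemma ball_uncountable {c : ℂ} {r : ℝ} (hr : 0 < r) : ¬ (ball c r).Countable := by
  intro h
  have h1 := h.measure_zero (MeasureTheory.volume : MeasureTheory.Measure ℂ)
  exact (measure_ball_pos _ c hr).ne' h1

/-- from local countability round the points outside `A` to the dichotomy -/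
lemma dich {A : Set ℂ} {θ : ℝ} (hθ : 0 < θ)
    (h : ∀ s₀ ∈ ball (0 : ℂ) 1, s₀ ∉ A → (ball s₀ (θ * (1 - ‖s₀‖)) ∩ A).Countable) :
    (ball (0 : ℂ) 1 ∩ A).Countable ∨ ball (0 : ℂ) 1 ⊆ A := by
  rw [or_iff_not_imp_right]
  intro hn
  obtain ⟨s₀, hs₀, hA⟩ := not_subset.1 hn
  let N : Set ℂ := {s | ∃ ε : ℝ, 0 < ε ∧ (ball s ε ∩ A).Countable}
  have hNo : IsOpen N := by
    rw [Metric.isOpen_iff]
    rintro s ⟨ε, hε, h1⟩
    refine ⟨ε / 2, half_pos hε, fun t ht => ⟨ε / 2, half_pos hε, h1.mono ?_⟩⟩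
    refine inter_subset_inter_left _ (ball_subset ?_)
    rw [mem_ball] at ht
    linarith
  have hn1 : ∀ s ∈ ball (0 : ℂ) 1, 0 < 1 - ‖s‖ := fun s hs => by
    rw [mem_ball, dist_zero_right] at hs
    linarith
  have hsub : ball (0 : ℂ) 1 ⊆ N := by
    refine (convex_ball (0 : ℂ) 1).isPreconnected.subset_of_closure_inter_subset hNo
      ⟨s₀, hs₀, θ * (1 - ‖s₀‖), mul_pos hθ (hn1 s₀ hs₀), h s₀ hs₀ hA⟩ ?_
    rintro s ⟨hs, hs1⟩
    have h1 := hn1 s hs1
    set δ : ℝ := min ((1 - ‖s‖) / 2) (θ * (1 - ‖s‖) / 4) with hδ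
    have hδ0 : 0 < δ := lt_min (by positivity) (by positivity)
    have hδ1 : δ ≤ (1 - ‖s‖) / 2 := min_le_left _ _
    have hδ2 : δ ≤ θ * (1 - ‖s‖) / 4 := min_le_right _ _
    obtain ⟨t, ⟨ε, hε, ht⟩, hst⟩ := Metric.mem_closure_iff.1 hs (δ / 2) (half_pos hδ0)
    have h2 : ¬ ball t (min ε (δ / 2)) ⊆ A := by
      intro h3
      refine ball_uncountable (c := t) (lt_min hε (half_pos hδ0)) (ht.mono ?_)
      exact subset_inter (ball_subset_ball (min_le_left _ _)) h3
    obtain ⟨u, hu, huA⟩ := not_subset.1 h2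
    have hu1 : dist u t < δ / 2 := (mem_ball.1 hu).trans_le (min_le_right _ _)
    have hus : dist s u < δ := by
      have := dist_triangle s t u
      rw [dist_comm t u] at this
      linarith
    have hu2 : ‖u‖ ≤ ‖s‖ + δ := by
      have h4 : ‖u‖ - ‖s‖ ≤ dist s u := by
        rw [dist_comm, dist_eq_norm]
        exact norm_sub_norm_le u s
      linarith
    have hu3 : u ∈ ball (0 : ℂ) 1 := by
      rw [mem_ball, dist_zero_right]
      linarith
    refine ⟨δ, hδ0, (h u hu3 huA).mono (inter_subset_inter_left _ (ball_subset ?_))⟩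
    have h5 : θ * ((1 - ‖s‖) / 2) ≤ θ * (1 - ‖u‖) :=
      mul_le_mul_of_nonneg_left (by linarith) hθ.le
    linarith
  have h1 : ∀ x ∈ ball (0 : ℂ) 1, ∃ U ∈ 𝓝[ball (0 : ℂ) 1] x, (U ∩ A).Countable := by
    intro x hx
    obtain ⟨ε, hε, h2⟩ := hsub hx
    exact ⟨ball x ε, mem_nhdsWithin_of_mem_nhds (ball_mem_nhds _ hε), h2⟩
  choose! U hU hUc using h1
  obtain ⟨t, hts, ht, h2⟩ := TopologicalSpace.countable_cover_nhdsWithin hU
  refine (ht.biUnion fun x hx => hUc x (hts hx)).mono ?_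
  rintro y ⟨hy, hyA⟩
  obtain ⟨x, hx, hyx⟩ := mem_iUnion₂.1 (h2 hy)
  exact mem_iUnion₂.2 ⟨x, hx, hyx, hyA⟩

section abs

variable {E G P : Type} [AddCommGroup E] [Module ℂ E] [NormedAddCommGroup G] [NormedSpace ℂ G]
  [Fintype P]

/-- the vectors whose image lies in the closure of the range -/
def Wk (A : E →ₗ[ℂ] G) (j : (P → ℂ) →ₗ[ℂ] G) : Submodule ℂ (P → ℂ) :=
  (LinearMap.range A).topologicalClosure.comap j

lemma loc (T : ℂ → E →ₗ[ℂ] G) (j : (P → ℂ) →ₗ[ℂ] G) {s₀ : ℂ} {R C : ℝ} (hR : 0 < R) (hC : 0 ≤ C)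
    (hd : ∀ f, DifferentiableOn ℂ (fun s => T s f) (ball s₀ R))
    (hb : ∀ s ∈ ball s₀ R, ∀ f, ‖T s f‖ ≤ C * ‖T s₀ f‖) :
    (ball s₀ (R / (2 * (1 + C))) ∩
      {s | finrank ℂ (Wk (T s₀) j) < finrank ℂ (Wk (T s) j)}).Countable := by
  classical
  set ρ : ℝ := R / (2 * (1 + C)) with hρ
  have hρ0 : 0 < ρ := by positivity
  obtain ⟨U, hU⟩ := (Wk (T s₀) j).exists_isCompl
  let u := Module.finBasis ℂ U
  let S : Set (ℂ → G → ℂ) := {y | (∀ g, DifferentiableOn ℂ (fun s => y s g) (ball s₀ ρ)) ∧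
    (∀ s ∈ ball s₀ ρ, IsLinearMap ℂ (y s)) ∧
    ∀ s ∈ ball s₀ ρ, ∀ g ∈ (LinearMap.range (T s)).topologicalClosure, y s g = 0}
  have hcomb : ∀ y ∈ S, ∀ s ∈ ball s₀ ρ, ∀ c : Fin (finrank ℂ U) → ℂ,
      y s (j ((∑ i, c i • u i : U) : P → ℂ)) = ∑ i, c i * y s (j (u i)) := by
    intro y hy s hs c
    have h1 := map_sum (IsLinearMap.mk' (y s) (hy.2.1 s hs)) (fun i => c i • j (u i)) Finset.univ
    simp only [map_smul, IsLinearMap.mk'_apply, smul_eq_mul] at h1
    rw [← h1]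
    simp only [Submodule.coe_sum, Submodule.coe_smul, map_sum, map_smul]
  have hzero : ∀ c : Fin (finrank ℂ U) → ℂ, (∑ i, c i • u i : U) = 0 → c = 0 := fun c hc =>
    funext (Fintype.linearIndependent_iff.1 u.linearIndependent c hc)
  obtain ⟨y, hyS, hdet⟩ := Vale.Agent.P301.H99.exists_det_ne S (fun y i => y s₀ (j (u i))) (by
    intro c hc
    refine hzero c ?_
    have h1 : ((∑ i, c i • u i : U) : P → ℂ) ∈ Wk (T s₀) j := by
      by_contra hne
      have hcl : IsClosed (((LinearMap.range (T s₀)).topologicalClosure : Submodule ℂ G) : Set G) :=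
        Submodule.isClosed_topologicalClosure _
      have h2 : (LinearMap.range (T s₀)).topologicalClosure.mkQL
          (j ((∑ i, c i • u i : U) : P → ℂ)) ≠ 0 := fun h3 =>
        hne ((Submodule.Quotient.mk_eq_zero (LinearMap.range (T s₀)).topologicalClosure).1 h3)
      obtain ⟨φ, hφ⟩ := SeparatingDual.exists_ne_zero (R := ℂ) h2
      obtain ⟨y, hy0, hy1, hy2, hy3, hy4⟩ := lift hR hC hd hb
        (φ.comp (LinearMap.range (T s₀)).topologicalClosure.mkQL) (fun f => by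
          have h3 : (LinearMap.range (T s₀)).topologicalClosure.mkQL (T s₀ f) = 0 :=
            (Submodule.Quotient.mk_eq_zero _).2
              (Submodule.le_topologicalClosure _ (LinearMap.mem_range_self _ f))
          rw [ContinuousLinearMap.comp_apply, h3, map_zero])
      have hyS : y ∈ S := by
        refine ⟨hy1, hy2, fun s hs g hg => ?_⟩
        let Y : G →L[ℂ] ℂ := (IsLinearMap.mk' (y s) (hy2 s hs)).mkContinuous _ fun g =>
          (hy3 s hs g).trans (le_of_eq (mul_assoc _ _ _).symm)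
        have h4 : (LinearMap.range (T s)).topologicalClosure ≤ LinearMap.ker (Y : G →ₗ[ℂ] ℂ) := by
          refine Submodule.topologicalClosure_minimal _ ?_ Y.isClosed_ker
          rintro _ ⟨f, rfl⟩
          exact hy4 s hs f
        exact h4 hg
      have h5 := hc y hyS
      rw [← hcomb y hyS s₀ (mem_ball_self hρ0), hy0] at h5
      exact hφ h5
    have h2 := hU.disjoint.le_bot ⟨h1, (∑ i, c i • u i : U).2⟩
    exact Subtype.ext h2)
  let Δ : ℂ → ℂ := fun s => (Matrix.of fun i l => y i s (j (u l))).det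
  have hΔ : DifferentiableOn ℂ Δ (ball s₀ ρ) := by
    simp only [Δ, Matrix.det_apply', Matrix.of_apply]
    refine DifferentiableOn.fun_sum fun σ _ => DifferentiableOn.const_mul ?_ _
    exact DifferentiableOn.fun_finset_prod fun i _ => (hyS _).1 _
  refine (zeros_countable hρ0 hΔ hdet).mono ?_
  rintro s ⟨hs, hlt⟩
  refine ⟨hs, ?_⟩
  by_contra hne
  have hdis : Disjoint (Wk (T s) j) U := by
    rw [Submodule.disjoint_def]
    intro v hv hvU
    have h1 : (⟨v, hvU⟩ : U) = ∑ i, u.repr ⟨v, hvU⟩ i • u i := (u.sum_repr _).symm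
    have h2 : (Matrix.of fun i l => y i s (j (u l))).mulVec (fun l => u.repr ⟨v, hvU⟩ l) = 0 := by
      funext i
      have h3 := hcomb (y i) (hyS i) s hs fun l => u.repr ⟨v, hvU⟩ l
      rw [← h1, (hyS i).2.2 s hs _ hv] at h3
      simp only [Matrix.mulVec, dotProduct, Matrix.of_apply, Pi.zero_apply]
      rw [h3]
      exact Finset.sum_congr rfl fun l _ => mul_comm _ _
    have h4 := Matrix.eq_zero_of_mulVec_eq_zero hne h2
    have h5 : (⟨v, hvU⟩ : U) = 0 := by
      rw [h1]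
      refine Finset.sum_eq_zero fun i _ => ?_
      rw [show u.repr ⟨v, hvU⟩ i = 0 from congrFun h4 i, zero_smul]
    exact congrArg Subtype.val h5
  have h1 := Submodule.finrank_add_finrank_le_of_disjoint hdis
  have h2 := Submodule.finrank_add_eq_of_isCompl hU
  have h3 : finrank ℂ (Wk (T s₀) j) < finrank ℂ (Wk (T s) j) := hlt
  omega

lemma le_rank_iff {W : Submodule ℂ (P → ℂ)} {k : ℕ} :
    (∃ v : Fin k → P → ℂ, LinearIndependent ℂ v ∧ ∀ i, v i ∈ W) ↔ k ≤ finrank ℂ W := by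
  constructor
  · rintro ⟨v, hv, hW⟩
    have h1 : LinearIndependent ℂ fun i => (⟨v i, hW i⟩ : W) :=
      LinearIndependent.of_comp W.subtype hv
    simpa using h1.fintype_card_le_finrank
  · intro h
    obtain ⟨v, hv⟩ := exists_linearIndependent_of_le_finrank h
    exact ⟨fun i => v i, hv.map' W.subtype W.ker_subtype, fun i => (v i).2⟩

end abs

theorem core2 : CORE2 := by
  intro E _ _ Q P _ ev D C k hd hb hC
  classical
  let G := lp (fun _ : Q ⊕ P => ℂ) ∞
  have hP : ∀ v : P → ℂ, ∀ p, ‖v p‖ ≤ ‖v‖ := fun v p => norm_le_pi_norm v p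
  have hmem : ∀ (a : Q → ℂ) (v : P → ℂ), (∃ c : ℝ, ∀ q, ‖a q‖ ≤ c) →
      Memℓp (fun i : Q ⊕ P => Sum.elim a v i) ∞ := by
    rintro a v ⟨c, hc⟩
    refine memℓp_infty ⟨max c ‖v‖, ?_⟩
    rintro _ ⟨i, rfl⟩
    rcases i with q | p
    · exact (hc q).trans (le_max_left _ _)
    · exact (hP v p).trans (le_max_right _ _)
  let j : (P → ℂ) →ₗ[ℂ] G :=
    { toFun := fun v => ⟨fun i => Sum.elim 0 v i, hmem 0 v ⟨0, fun q => by simp⟩⟩
      map_add' := fun v w => lp.ext (funext fun i => by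
        rcases i with q | p
        · exact (add_zero (0 : ℂ)).symm
        · rfl)
      map_smul' := fun c v => lp.ext (funext fun i => by
        rcases i with q | p
        · exact (mul_zero c).symm
        · rfl) }
  let T' : ∀ s ∈ ball (0 : ℂ) 1, E →ₗ[ℂ] G := fun s hs =>
    { toFun := fun f => ⟨fun i => Sum.elim (D s f) (ev f) i, hmem _ _ (hb s hs f)⟩
      map_add' := fun v w => lp.ext (funext fun i => by rcases i with q | p <;> simp <;> rfl)
      map_smul' := fun c v => lp.ext (funext fun i => by rcases i with q | p <;> simp <;> rfl) }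
  let T : ℂ → E →ₗ[ℂ] G := fun s => if hs : s ∈ ball (0 : ℂ) 1 then T' s hs else 0
  have hT : ∀ s ∈ ball (0 : ℂ) 1, ∀ f i, T s f i = Sum.elim (D s f) (ev f) i := by
    intro s hs f i
    simp only [T, dif_pos hs]
    rfl
  have hle : ∀ (g : G) i, ‖g i‖ ≤ ‖g‖ := fun g i => lp.norm_apply_le_norm ENNReal.top_ne_zero g i
  have hTb : ∀ s₀ ∈ ball (0 : ℂ) 1, ∀ s ∈ ball (0 : ℂ) 1, ∀ f,
      ‖T s f‖ ≤ max C 1 * ‖T s₀ f‖ := by
    intro s₀ h0 s hs f
    have h1 : ∀ p, ‖ev f p‖ ≤ ‖T s₀ f‖ := fun p => by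
      have := hle (T s₀ f) (Sum.inr p)
      rwa [hT s₀ h0] at this
    have h2 : ∀ q, ‖D s₀ f q‖ ≤ ‖T s₀ f‖ := fun q => by
      have := hle (T s₀ f) (Sum.inl q)
      rwa [hT s₀ h0] at this
    refine lp.norm_le_of_forall_le (by positivity) fun i => ?_
    rw [hT s hs]
    rcases i with q | p
    · exact (hC s₀ h0 s hs f _ (norm_nonneg _) h2 h1 q).trans
        (mul_le_mul_of_nonneg_right (le_max_left _ _) (norm_nonneg _))
    · exact (h1 p).trans (le_mul_of_one_le_left (norm_nonneg _) (le_max_right _ _))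
  have hTd : ∀ f, DifferentiableOn ℂ (fun s => T s f) (ball 0 1) := by
    intro f
    refine strong isOpen_ball (M := max C 1 * ‖T 0 f‖) (fun i => ?_)
      fun s hs => hTb 0 (mem_ball_self one_pos) s hs f
    refine DifferentiableOn.congr ?_ fun s hs => hT s hs f i
    rcases i with q | p
    · exact hd f q
    · exact differentiableOn_const _
  have hW : ∀ s ∈ ball (0 : ℂ) 1, ∀ v : P → ℂ, (∀ ε : ℝ, 0 < ε →
      ∃ f, (∀ q, ‖D s f q‖ ≤ ε) ∧ ∀ p, ‖ev f p - v p‖ ≤ ε) ↔ v ∈ Wk (T s) j := by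
    intro s hs v
    have h1 : ∀ f i, (T s f - j v) i = Sum.elim (D s f) (ev f - v) i := by
      intro f i
      show T s f i - Sum.elim (0 : Q → ℂ) v i = _
      rw [hT s hs]
      rcases i with q | p <;> simp
    show _ ↔ j v ∈ closure ((LinearMap.range (T s) : Submodule ℂ G) : Set G)
    rw [Metric.mem_closure_iff]
    constructor
    · intro h ε hε
      obtain ⟨f, h2, h3⟩ := h (ε / 2) (half_pos hε)
      refine ⟨T s f, LinearMap.mem_range_self _ f, lt_of_le_of_lt ?_ (half_lt_self hε)⟩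
      rw [dist_comm, dist_eq_norm]
      refine lp.norm_le_of_forall_le (half_pos hε).le fun i => ?_
      rw [h1]
      rcases i with q | p
      · exact h2 q
      · exact h3 p
    · intro h ε hε
      obtain ⟨_, ⟨f, rfl⟩, h2⟩ := h ε hε
      rw [dist_comm, dist_eq_norm] at h2
      refine ⟨f, fun q => ?_, fun p => ?_⟩
      · have := hle (T s f - j v) (Sum.inl q)
        rw [h1] at this
        exact this.trans h2.le
      · have := hle (T s f - j v) (Sum.inr p)
        rw [h1] at this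
        exact this.trans h2.le
  have hA : ∀ s ∈ ball (0 : ℂ) 1, (∃ v : Fin k → P → ℂ, LinearIndependent ℂ v ∧ ∀ j, ∀ ε : ℝ,
      0 < ε → ∃ f, (∀ q, ‖D s f q‖ ≤ ε) ∧ ∀ p, ‖ev f p - v j p‖ ≤ ε) ↔
      k ≤ finrank ℂ (Wk (T s) j) := by
    intro s hs
    rw [← le_rank_iff]
    exact exists_congr fun v => and_congr_right fun _ => forall_congr' fun i => hW s hs (v i)
  have hC0 : 0 ≤ max C 1 := le_max_of_le_right zero_le_one
  refine dich (θ := 1 / (2 * (1 + max C 1))) (by positivity) fun s₀ h0 hn => ?_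
  have h1 : 0 < 1 - ‖s₀‖ := by
    rw [mem_ball, dist_zero_right] at h0
    linarith
  have hsub : ball s₀ (1 - ‖s₀‖) ⊆ ball 0 1 := by
    refine ball_subset ?_
    rw [dist_zero_right]
    linarith
  have h2 := loc T j h1 hC0 (fun f => (hTd f).mono hsub) fun s hs f => hTb s₀ h0 s (hsub hs) f
  have h3 : 1 / (2 * (1 + max C 1)) * (1 - ‖s₀‖) = (1 - ‖s₀‖) / (2 * (1 + max C 1)) := by ring
  rw [h3]
  refine h2.mono ?_
  rintro s ⟨hs, hsA⟩
  refine ⟨hs, ?_⟩
  have hs1 : s ∈ ball (0 : ℂ) 1 := by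
    refine hsub (ball_subset_ball ?_ hs)
    rw [div_le_iff₀ (by positivity)]
    nlinarith
  have h4 := (hA s hs1).1 hsA
  have h5 : ¬ k ≤ finrank ℂ (Wk (T s₀) j) := fun h => hn ((hA s₀ h0).2 h)
  show finrank ℂ (Wk (T s₀) j) < finrank ℂ (Wk (T s) j)
  omega

end Vale.Agent.P301Z.Semi
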