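import Vale.Agent.P301Z.Semi.Defs

/-! # P301Z, block SEMI: assembly -/

open scoped Manifold ContDiff Topology
open Filter Metric Set

noncomputable section

namespace Vale.Agent.P301Z.Semi

open Vale.Agent.P272.K Vale.Agent.P301.H599 Vale.Agent.P301.H99

namespace Tp

variable {b b' : ℕ} {B : Set (Cm b)}

theorem inter {I : Type} (S : Set I) {A : I → Set (Cm b)} (h : ∀ u, DiscAn B (A u)) :
    DiscAn B (⋂ u ∈ S, A u) := by
  intro γ h1 h2
  by_cases k : ∀ u ∈ S, ball (0 : ℂ) 1 ⊆ γ ⁻¹' A u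
  · exact Or.inr fun s hs => mem_iInter₂.2 fun u hu => k u hu hs
  · push Not at k
    obtain ⟨u, hu, k⟩ := k
    exact Or.inl (((h u γ h1 h2).resolve_right k).mono fun s hs =>
      And.intro hs.1 (mem_iInter₂.1 hs.2 u hu))

theorem pre {A : Set (Cm b)} (h : DiscAn B A) {B' : Set (Cm b')} {ψ : Cm b' → Cm b}
    (h1 : DifferentiableOn ℂ ψ B') (h2 : MapsTo ψ B' B) : DiscAn B' (ψ ⁻¹' A) :=
  fun γ k1 k2 => h (fun s => ψ (γ s)) (h1.comp k1 k2) (h2.comp k2)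

theorem not_countable {U : Set ℂ} (hU : IsOpen U) (h : U.Nonempty) : ¬ U.Countable := fun k =>
  (hU.measure_pos MeasureTheory.volume h).ne' (k.measure_zero _)

theorem zero_mem {A O : Set (Cm b)} {r : ℝ} (h : DiscAn (ball 0 r) A) (hO : IsOpen O)
    (hA : O ⊆ A) {t : Cm b} (ht : t ∈ O) (hr : t ∈ ball (0 : Cm b) r) : (0 : Cm b) ∈ A := by
  by_cases h0 : t = 0
  · exact h0 ▸ hA ht
  have h1 : 0 < ‖t‖ := norm_pos_iff.2 h0
  have h2 : ‖t‖ < r := mem_ball_zero_iff.1 hr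
  have h3 : 0 < r := h1.trans h2
  set l : ℝ := r / ‖t‖ with hl
  have h4 : 0 < l := div_pos h3 h1
  have h5 : Differentiable ℂ fun s : ℂ => (s * l) • t := by fun_prop
  have h6 : MapsTo (fun s : ℂ => (s * l) • t) (ball 0 1) (ball 0 r) := fun s hs => by
    rw [mem_ball_zero_iff] at hs ⊢
    rw [norm_smul, norm_mul, Complex.norm_real, Real.norm_of_nonneg h4.le, mul_assoc, hl,
      div_mul_cancel₀ _ h1.ne']
    exact mul_lt_of_lt_one_left h3 hs
  rcases h _ h5.differentiableOn h6 with k | k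
  · refine (not_countable (isOpen_ball.inter (hO.preimage h5.continuous)) ⟨(l⁻¹ : ℝ), ?_, ?_⟩
      (k.mono (inter_subset_inter_right _ (preimage_mono hA)))).elim
    · rw [mem_ball_zero_iff, Complex.norm_real, Real.norm_of_nonneg (inv_pos.2 h4).le]
      exact inv_lt_one_of_one_lt₀ ((one_lt_div h1).2 h2)
    · show (((l⁻¹ : ℝ) : ℂ) * l) • t ∈ O
      rwa [← Complex.ofReal_mul, inv_mul_cancel₀ h4.ne', Complex.ofReal_one, one_smul]
  · simpa using k (mem_ball_self one_pos)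

end Tp

open Tp

theorem semig_of (hJ : JOINT) (hC : CECH) (hB : BIG) : SEMIG := by
  intro d b X _ _ _ Y _ _ _ κ M N r hr F
  obtain ⟨r', h0, h1, n, ⟨D⟩⟩ := hJ d b X Y κ M N r hr F
  refine ⟨r', h0, h1, fun J _ S b' p ρ ψ hρ hψ hm hi hc => ?_⟩
  choose A hA hin hout using hC d b Y κ M n (ball 0 r') (mem_ball_self h0) D
  have h2 : ∀ j, DiscAn (ball 0 r') (⋂ u ∈ S j, A u.1 u.2) := fun j =>
    inter (S j) fun u => hA u.1 u.2
  obtain ⟨j, hj⟩ := hB b' p ρ hρ J (fun j => ψ ⁻¹' ⋂ u ∈ S j, A u.1 u.2)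
    (fun j => pre (h2 j) hψ hm) fun y hy => (hc y hy).mono fun x hx => And.intro hx.1 fun ⟨j, k⟩ =>
      hx.2 j (mem_iInter₂.2 fun u hu => hin u.1 u.2 _ (hm (by
        rw [mem_ball, dist_pi_lt_iff hρ]
        intro i
        rw [Complex.dist_eq, ← Complex.ofReal_sub, Complex.norm_real, Real.norm_eq_abs]
        exact Fin.cases hx.1 hy i)) (k u hu))
  obtain ⟨t, ht⟩ := hi
  have h3 := zero_mem (h2 j) isOpen_interior
    (interior_subset.trans (image_subset_iff.2 hj)) ht (hm.image_subset (interior_subset ht))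
  exact ⟨j, fun u hu => hout u.1 u.2 (mem_iInter₂.1 h3 u hu)⟩

theorem grow_iff {d : ℕ} {X : Type} [TopologicalSpace X] [ChartedSpace (Cm d) X] {ι : Type}
    (L : LineBundle d X ι) (n : ℕ) : Grow L n ↔ ∃ j : ℕ × ℕ, ∀ u ∈ {u : ℕ × ℕ | ∃ m : ℕ,
      u.1 = (j.1 + 1) * m ∧ (u.2 : ℝ) ≤ 1 / ((j.2 : ℝ) + 1) * (m : ℝ) ^ n}, H0 L u.1 u.2 := by
  constructor
  · rintro ⟨K, hK, c, hc, h⟩
    obtain ⟨q, hq⟩ := exists_nat_one_div_lt hc
    refine ⟨(K - 1, q), fun u ⟨m, h1, h2⟩ => ?_⟩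
    rw [h1, Nat.sub_add_cancel hK]
    exact h m _ (h2.trans (mul_le_mul_of_nonneg_right hq.le (by positivity)))
  · rintro ⟨j, h⟩
    exact ⟨j.1 + 1, j.1.succ_pos, _, Nat.one_div_pos_of_nat (n := j.2), fun m k hk =>
      h ((j.1 + 1) * m, k) ⟨m, rfl, hk⟩⟩

theorem semi_of (h : SEMIG) : SEMI := by
  intro d b X _ _ _ Y _ _ _ κ M N r hr F
  obtain ⟨r', h0, h1, k⟩ := h d b X Y κ M N r hr F
  refine ⟨r', h0, h1, fun n b' p ρ ψ hρ hψ hm hi hc => (grow_iff _ n).2 ?_⟩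
  exact k (ℕ × ℕ) _ b' p ρ ψ hρ hψ hm hi fun y hy =>
    (hc y hy).mono fun x hx => And.intro hx.1 fun c => hx.2 ((grow_iff _ n).1 c)

end Vale.Agent.P301Z.Semi
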