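import Vale.Agent.P301Z.Semi.Defs2
import Vale.Agent.P301Z.Semi.Top

/-! # P301Z, block SEMI: assembly, with uncountably many good parameters on every line -/

open scoped Manifold ContDiff Topology
open Filter Metric Set

noncomputable section

namespace Vale.Agent.P301Z.Semi

open Vale.Agent.P272.K Vale.Agent.P301.H599 Vale.Agent.P301.H99

open Tp

theorem semig2_of (hJ : JOINT) (hC : CECH) (hB : BIG2) : SEMIG2 := by
  intro d b X _ _ _ Y _ _ _ κ M N r hr F
  obtain ⟨r', h0, h1, n, ⟨D⟩⟩ := hJ d b X Y κ M N r hr F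
  refine ⟨r', h0, h1, fun J _ S b' p ρ ψ hρ hψ hm hi hc => ?_⟩
  choose A hA hin hout using hC d b Y κ M n (ball 0 r') (mem_ball_self h0) D
  have h2 : ∀ j, DiscAn (ball 0 r') (⋂ u ∈ S j, A u.1 u.2) := fun j =>
    inter (S j) fun u => hA u.1 u.2
  obtain ⟨j, hj⟩ := hB b' p ρ hρ J (fun j => ψ ⁻¹' ⋂ u ∈ S j, A u.1 u.2)
    (fun j => pre (h2 j) hψ hm) fun y hy c => hc y hy (c.mono fun x hx => And.intro hx.1
      (hx.2.imp fun j k => mem_iInter₂.2 fun u hu => hin u.1 u.2 _ (hm (by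
        rw [mem_ball, dist_pi_lt_iff hρ]
        intro i
        rw [Complex.dist_eq, ← Complex.ofReal_sub, Complex.norm_real, Real.norm_eq_abs]
        exact Fin.cases hx.1 hy i)) (k u hu)))
  obtain ⟨t, ht⟩ := hi
  have h3 := zero_mem (h2 j) isOpen_interior
    (interior_subset.trans (image_subset_iff.2 hj)) ht (hm.image_subset (interior_subset ht))
  exact ⟨j, fun u hu => hout u.1 u.2 (mem_iInter₂.1 h3 u hu)⟩

theorem semi2_of (h : SEMIG2) : SEMI2 := by
  intro d b X _ _ _ Y _ _ _ κ M N r hr F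
  obtain ⟨r', h0, h1, k⟩ := h d b X Y κ M N r hr F
  refine ⟨r', h0, h1, fun n b' p ρ ψ hρ hψ hm hi hc => (grow_iff _ n).2 ?_⟩
  exact k (ℕ × ℕ) _ b' p ρ ψ hρ hψ hm hi fun y hy c => hc y hy
    (c.mono fun x hx => And.intro hx.1 ((grow_iff _ n).1 hx.2))

end Vale.Agent.P301Z.Semi
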