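import Vale.Agent.P301Z.Semi.Joint
import Vale.Agent.P301Z.Semi.Cech
import Vale.Agent.P301Z.Semi.Core
import Vale.Agent.P301Z.Semi.Big2
import Vale.Agent.P301Z.Semi.Top2

/-! # P301Z, block SEMI: semicontinuity, with nothing assumed -/

namespace Vale.Agent.P301Z.Semi

theorem cech : CECH := cech_of core2

theorem semig : SEMIG := semig_of jointF cech big

theorem semi : SEMI := semi_of semig

theorem semig2 : SEMIG2 := semig2_of jointF cech big2

theorem semi2 : SEMI2 := semi2_of semig2

end Vale.Agent.P301Z.Semi
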