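import Vale.Agent.P301Z.Semi.Defs2

/-! # P301Z, block SEMI: kernels of holomorphic families of linear maps -/

open scoped Topology
open Filter Metric Set

set_option linter.all false

noncomputable section

namespace Vale.Agent.P301Z.Semi

/-- kernels of a holomorphic family of linear maps with closed range which are finite dimensional
uniformly -/
def CORE2 : Prop :=
  ∀ (E : Type) [AddCommGroup E] [Module ℂ E] (Q P : Type) [Fintype P] (ev : E →ₗ[ℂ] (P → ℂ))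
    (D : ℂ → E →ₗ[ℂ] (Q → ℂ)) (C : ℝ) (k : ℕ),
    (∀ f q, DifferentiableOn ℂ (fun s => D s f q) (ball 0 1)) →
    (∀ s ∈ ball (0 : ℂ) 1, ∀ f, ∃ c : ℝ, ∀ q, ‖D s f q‖ ≤ c) →
    (∀ s₀ ∈ ball (0 : ℂ) 1, ∀ s ∈ ball (0 : ℂ) 1, ∀ f (c : ℝ), 0 ≤ c → (∀ q, ‖D s₀ f q‖ ≤ c) →
      (∀ p, ‖ev f p‖ ≤ c) → ∀ q, ‖D s f q‖ ≤ C * c) →
    (ball (0 : ℂ) 1 ∩ {s | ∃ v : Fin k → P → ℂ, LinearIndependent ℂ v ∧ ∀ j, ∀ ε : ℝ, 0 < ε →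
        ∃ f, (∀ q, ‖D s f q‖ ≤ ε) ∧ ∀ p, ‖ev f p - v j p‖ ≤ ε}).Countable ∨
      ball (0 : ℂ) 1 ⊆ {s | ∃ v : Fin k → P → ℂ, LinearIndependent ℂ v ∧ ∀ j, ∀ ε : ℝ, 0 < ε →
        ∃ f, (∀ q, ‖D s f q‖ ≤ ε) ∧ ∀ p, ‖ev f p - v j p‖ ≤ ε}

end Vale.Agent.P301Z.Semi
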