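import Vale.Agent.P301Z.Semi.Defs

/-! # P301Z, block SEMI: from a holomorphic motion of charts to polydiscs -/

open scoped Manifold ContDiff Topology
open Filter Metric Set

set_option linter.all false

noncomputable section

namespace Vale.Agent.P301Z.Semi

open Vale.Agent.P272.K Vale.Agent.P301.H599 Vale.Agent.P301.H99

namespace Jt

/-- holomorphy in the parameter from holomorphy along a curve -/
theorem motion {T W Z : Type} [NormedAddCommGroup T] [NormedSpace ℂ T] [NormedAddCommGroup W]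
    [NormedSpace ℂ W] [ProperSpace W] [NormedAddCommGroup Z] [NormedSpace ℂ Z] {Φ : T × W → Z}
    {u : T → W} {t₀ : T}
    (h : ∀ᶠ p in 𝓝 (t₀, u t₀), ContinuousAt Φ p ∧ DifferentiableAt ℂ (fun w => Φ (p.1, w)) p.2)
    (hu : DifferentiableAt ℂ u t₀) (hΦ : DifferentiableAt ℂ (fun t => Φ (t, u t)) t₀) :
    DifferentiableAt ℂ (fun t => Φ (t, u t₀)) t₀ := by
  have h0 := h.self_of_nhds
  rw [nhds_prod_eq] at h
  obtain ⟨A, hA, B, hB, hAB⟩ := eventually_prod_iff.1 h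
  obtain ⟨ε, hε, hB'⟩ := nhds_basis_closedBall.eventually_iff.1 hB
  have hA0 := hA.self_of_nhds
  have key : (fun t => (Φ (t, u t₀) - Φ (t₀, u t₀)) - (Φ (t, u t) - Φ (t₀, u t))) =o[𝓝 t₀]
      fun t => u t - u t₀ := by
    refine Asymptotics.isLittleO_iff.2 fun c hc => ?_
    have h1 : ∀ᶠ t in 𝓝 t₀, ∀ w ∈ closedBall (u t₀) ε, ‖Φ (t, w) - Φ (t₀, w)‖ ≤ c * ε / 4 := by
      refine (isCompact_closedBall _ _).eventually_forall_of_forall_eventually fun w hw => ?_
      have h2 : ContinuousAt (fun z : T × W => ‖Φ (z.1, z.2) - Φ (t₀, z.2)‖) (t₀, w) :=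
        ((hAB hA0 (hB' hw)).1.sub (ContinuousAt.comp (f := fun z : T × W => (t₀, z.2))
          (hAB hA0 (hB' hw)).1 (by fun_prop))).norm
      refine h2.eventually (eventually_le_nhds ?_)
      simp only [sub_self, norm_zero]
      positivity
    filter_upwards [h1, hA, hu.continuousAt.eventually (ball_mem_nhds _ (by positivity : 0 < ε / 4))]
      with t h2 h3 h4
    have h5 := P299.H720.lip_of_bdd (f := fun w => Φ (t, w) - Φ (t₀, w)) hε
      (fun w hw => (((hAB h3 (hB' (ball_subset_closedBall hw))).2).sub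
        (hAB hA0 (hB' (ball_subset_closedBall hw))).2).differentiableWithinAt)
      (fun w hw => h2 w (ball_subset_closedBall hw)) h4 (mem_ball_self (by positivity))
    rw [dist_eq_norm, dist_comm, dist_eq_norm] at h5
    refine h5.trans (le_of_eq ?_)
    congr 1
    field_simp
  have h6 : HasFDerivAt (fun t => (Φ (t, u t₀) - Φ (t₀, u t₀)) - (Φ (t, u t) - Φ (t₀, u t)))
      (0 : T →L[ℂ] Z) t₀ := by
    rw [hasFDerivAt_iff_isLittleO]
    simpa using key.trans_isBigO hu.isBigO_sub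
  have h7 : DifferentiableAt ℂ (fun t => Φ (t₀, u t)) t₀ :=
    DifferentiableAt.comp (g := fun w => Φ (t₀, w)) t₀ h0.2 hu
  have h8 := (h6.differentiableAt.add (hΦ.sub h7)).add_const (Φ (t₀, u t₀))
  refine h8.congr_of_eventuallyEq (.of_forall fun t => ?_)
  simp

variable {d b : ℕ} {X : Type} [TopologicalSpace X] {Y : Cm b → Type} [∀ t, TopologicalSpace (Y t)]
  [∀ t, ChartedSpace (Cm d) (Y t)] {κ : Cm b → Type} {M : ∀ t, LineBundle d (Y t) (κ t)}
  {N : ℕ} {r : ℝ} (F : CFam X Y κ M N (ball 0 r))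

/-- the moving chart -/
def E (a : Fin N) (p : Cm b × X) : Cm d := F.e p.1 a (F.φ p.1 p.2)

/-- the inverse of the moving chart -/
def χ (a : Fin N) (p : Cm b × Cm d) : X := (F.φ p.1).symm ((F.e p.1 a).symm p.2)

/-- the moving transition function -/
def g (a a' : Fin N) (p : Cm b × X) : ℂ := (M p.1).g (F.i p.1 a) (F.i p.1 a') (F.φ p.1 p.2)

variable {F} {a a' : Fin N} {t : Cm b} {x : X}

theorem χ_E (ht : t ∈ ball 0 r) (hx : x ∈ F.V a) : χ F a (t, E F a (t, x)) = x := by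
  simp only [χ, E, (F.e t a).left_inv (F.source t ht a x hx).1, Homeomorph.symm_apply_apply]

theorem φ_χ (a : Fin N) (t : Cm b) (w : Cm d) : F.φ t (χ F a (t, w)) = (F.e t a).symm w :=
  (F.φ t).apply_symm_apply _

theorem cont_E (ht : t ∈ ball 0 r) (hx : x ∈ F.V a) : ContinuousAt (E F a) (t, x) :=
  (F.cont a).continuousAt ((isOpen_ball.prod (F.isOpen a)).mem_nhds ⟨ht, hx⟩)

theorem cont_g (ht : t ∈ ball 0 r) (hx : x ∈ F.V a) (hx' : x ∈ F.V a') :
    ContinuousAt (g F a a') (t, x) :=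
  (F.contg a a').continuousAt
    ((isOpen_ball.prod ((F.isOpen a).inter (F.isOpen a'))).mem_nhds ⟨ht, hx, hx'⟩)

theorem cont_Et (ht : t ∈ ball 0 r) (hx : x ∈ F.V a) : ContinuousAt (fun x => E F a (t, x)) x :=
  ContinuousAt.comp (f := fun x : X => (t, x)) (cont_E ht hx) (by fun_prop)

variable (F) in
/-- a fixed ball in the images of a compact set -/
structure Loc (x₀ : X) where
  a : Fin N
  K : Set X
  δ : ℝ
  pos : 0 < δ
  cpt : IsCompact K
  mem : x₀ ∈ K
  sub : K ⊆ F.V a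
  onto : ∀ᶠ t in 𝓝 (0 : Cm b), ∀ w ∈ ball (E F a (0, x₀)) δ, ∃ x ∈ K, E F a (t, x) = w

theorem exists_loc [T2Space X] [CompactSpace X] (hr : 0 < r) (x₀ : X) : Nonempty (Loc F x₀) := by
  obtain ⟨a, ha⟩ := F.cover x₀
  obtain ⟨K, hK, hKV, hKc⟩ := local_compact_nhds ((F.isOpen a).mem_nhds ha)
  have h0 : (0 : Cm b) ∈ ball 0 r := mem_ball_self hr
  have hx₀ : x₀ ∈ interior K := mem_interior_iff_mem_nhds.2 hK
  have hC : IsCompact (K \ interior K) := hKc.diff isOpen_interior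
  have h1 : IsClosed ((fun x => E F a (0, x)) '' (K \ interior K)) :=
    (hC.image_of_continuousOn fun x hx => (cont_Et h0 (hKV hx.1)).continuousWithinAt).isClosed
  have h2 : E F a (0, x₀) ∉ (fun x => E F a (0, x)) '' (K \ interior K) := by
    rintro ⟨x, hx, he⟩
    have h3 := congrArg (fun w => χ F a (0, w)) he
    simp only [χ_E h0 (hKV hx.1), χ_E h0 ha] at h3
    exact hx.2 (h3 ▸ hx₀)
  obtain ⟨δ, hδ, h3⟩ := nhds_basis_closedBall.eventually_iff.1 (h1.isOpen_compl.eventually_mem h2)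
  refine ⟨⟨a, K, δ, hδ, hKc, interior_subset hx₀, hKV, ?_⟩⟩
  have h4 : ∀ᶠ t in 𝓝 (0 : Cm b), ∀ x ∈ K \ interior K,
      E F a (t, x) ∉ closedBall (E F a (0, x₀)) δ :=
    hC.eventually_forall_of_forall_eventually fun x hx =>
      (cont_E h0 (hKV hx.1)).eventually (isClosed_closedBall.isOpen_compl.eventually_mem
        fun h => h3 h ⟨x, hx, rfl⟩)
  have h5 : ∀ᶠ t in 𝓝 (0 : Cm b), E F a (t, x₀) ∈ ball (E F a (0, x₀)) δ :=
    (ContinuousAt.comp (f := fun t : Cm b => (t, x₀)) (cont_E h0 ha) (by fun_prop)).eventually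
      (ball_mem_nhds _ hδ)
  filter_upwards [h4, h5, ball_mem_nhds 0 hr] with t h6 h7 ht
  have h8 : IsOpen ((fun x => E F a (t, x)) '' interior K) := by
    have h9 := (F.e t a).isOpen_image_of_subset_source
      ((F.φ t).isOpenMap _ (isOpen_interior (s := K))) (by
        rintro _ ⟨x, hx, rfl⟩
        exact (F.source t ht a x (hKV (interior_subset hx))).1)
    rwa [image_image] at h9
  have h9 : IsClosed ((fun x => E F a (t, x)) '' K) :=
    (hKc.image_of_continuousOn fun x hx => (cont_Et ht (hKV hx)).continuousWithinAt).isClosed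
  have h10 := (convex_ball (E F a (0, x₀)) δ).isPreconnected.subset_left_of_subset_union h8
    h9.isOpen_compl (disjoint_compl_right.mono_left (image_mono interior_subset)) (fun w hw => by
      by_cases h : w ∈ (fun x => E F a (t, x)) '' K
      · obtain ⟨x, hx, rfl⟩ := h
        by_cases h' : x ∈ interior K
        · exact Or.inl ⟨x, h', rfl⟩
        · exact absurd (ball_subset_closedBall hw) (h6 x ⟨hx, h'⟩)
      · exact Or.inr h) ⟨_, h7, x₀, hx₀, rfl⟩
  intro w hw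
  obtain ⟨x, hx, he⟩ := h10 hw
  exact ⟨x, interior_subset hx, he⟩

/-- joint continuity of the inverse -/
theorem cont_χ {K : Set X} {w : Cm d} (hK : IsCompact K) (hV : K ⊆ F.V a) (ht : t ∈ ball 0 r)
    (h : ∀ᶠ p : Cm b × Cm d in 𝓝 (t, w), ∃ x ∈ K, E F a (p.1, x) = p.2) :
    ContinuousAt (χ F a) (t, w) := by
  have h1 : ∀ᶠ p : Cm b × Cm d in 𝓝 (t, w), χ F a p ∈ K ∧ E F a (p.1, χ F a p) = p.2 := by
    filter_upwards [h, (continuous_fst.tendsto (t, w)).eventually (isOpen_ball.mem_nhds ht)]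
      with p ⟨x, hx, he⟩ hp
    have h2 : χ F a p = x := by rw [← χ_E hp (hV hx), he]
    rw [h2]
    exact ⟨hx, he⟩
  refine hK.tendsto_nhds_of_unique_mapClusterPt (h1.mono fun _ h => h.1) fun x hx hc => ?_
  obtain ⟨U, hU, hl⟩ := mapClusterPt_iff_ultrafilter.1 hc
  have h2 : Tendsto (fun p : Cm b × Cm d => E F a (p.1, χ F a p)) U (𝓝 (E F a (t, x))) :=
    (cont_E ht (hV hx)).tendsto.comp (((continuous_fst.tendsto (t, w)).mono_left hU).prodMk_nhds hl)
  have h3 : Tendsto (fun p : Cm b × Cm d => E F a (p.1, χ F a p)) U (𝓝 w) :=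
    ((continuous_snd.tendsto (t, w)).mono_left hU).congr' ((h1.filter_mono hU).mono fun _ h => h.2.symm)
  rw [← tendsto_nhds_unique h2 h3, χ_E ht (hV hx)]

/-- holomorphy in the parameter at a fixed point of the chart -/
theorem hol_χ {Z : Type} [NormedAddCommGroup Z] [NormedSpace ℂ Z] {Ψ : Cm b × X → Z} {O : Set X}
    {S : Set (Cm b × Cm d)} {w : Cm d} (hO : IsOpen O) (hS : IsOpen S) (hw : (t, w) ∈ S)
    (hs : ∀ p ∈ S, p.1 ∈ ball 0 r ∧ ContinuousAt (χ F a) p ∧ χ F a p ∈ F.V a ∧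
      E F a (p.1, χ F a p) = p.2) (hx : χ F a (t, w) ∈ O)
    (hc : ∀ t ∈ ball 0 r, ∀ x ∈ O, ContinuousAt Ψ (t, x))
    (h1 : ∀ x ∈ O, DifferentiableOn ℂ (fun t => Ψ (t, x)) (ball 0 r))
    (h2 : ∀ t ∈ ball 0 r, ∀ x ∈ O, x ∈ F.V a →
      DifferentiableAt ℂ (fun w => Ψ (t, χ F a (t, w))) (E F a (t, x))) :
    DifferentiableAt ℂ (fun t => Ψ (t, χ F a (t, w))) t := by
  obtain ⟨ht, hχ, hV, he⟩ := hs _ hw
  have hb : ball (0 : Cm b) r ∈ 𝓝 t := isOpen_ball.mem_nhds ht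
  have h3 := motion (Φ := fun p => Ψ (p.1, χ F a p)) (u := fun s => E F a (s, χ F a (t, w)))
    (t₀ := t) (by
      rw [he]
      filter_upwards [hS.mem_nhds hw, hχ.eventually (hO.mem_nhds hx)] with p hp hp'
      obtain ⟨k1, k2, k3, k4⟩ := hs p hp
      refine ⟨ContinuousAt.comp (f := fun p : Cm b × Cm d => (p.1, χ F a p)) (hc _ k1 _ hp')
        (continuousAt_fst.prodMk k2), ?_⟩
      have k5 := h2 _ k1 _ hp' k3
      rwa [k4] at k5) ((F.hol a _ hV).differentiableAt hb)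
    (((h1 _ hx).differentiableAt hb).congr_of_eventuallyEq (by
      filter_upwards [hb] with s hs
      simp only [χ_E hs hV]))
  simpa only [he] using h3

variable [∀ t, IsManifold 𝓘(ℂ, Cm d) ω (Y t)]

theorem diff_E (ht : t ∈ ball 0 r) (hx' : x ∈ F.V a') (hx : x ∈ F.V a) :
    DifferentiableAt ℂ (fun w => E F a' (t, χ F a (t, w))) (E F a (t, x)) := by
  simp only [E, φ_χ]
  refine differentiableAt_pi.2 fun k => ?_
  refine (analytic_max (f := fun y => F.e t a' y k) (F.chart t ht a) (F.chart t ht a')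
    (F.source t ht a x hx).1 (F.source t ht a' x hx').1 ?_).differentiableAt
  refine ((ContinuousLinearMap.proj (R := ℂ) (φ := fun _ : Fin d => ℂ) k).analyticAt _).congr ?_
  filter_upwards [(F.e t a').open_target.mem_nhds
    ((F.e t a').map_source (F.source t ht a' x hx').1)] with z hz
  rw [(F.e t a').right_inv hz]
  rfl

theorem diff_g (ht : t ∈ ball 0 r) (hx' : x ∈ F.V a') (hx : x ∈ F.V a) :
    DifferentiableAt ℂ (fun w => g F a a' (t, χ F a (t, w))) (E F a (t, x)) := by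
  simp only [E, g, φ_χ]
  exact (analytic_of_at (fun c hc => (M t).holo _ _ c _ hc (F.source t ht a x hx).2
    (F.source t ht a' x hx').2) (F.chart t ht a) (F.source t ht a x hx).1).differentiableAt

end Jt

open Jt in
theorem jointF : JOINT := by
  intro d b X _ _ _ Y _ _ _ κ M N r hr F
  have h0 : (0 : Cm b) ∈ ball 0 r := mem_ball_self hr
  have L := fun x => (exists_loc (F := F) hr x).some
  obtain ⟨s, hs⟩ := isCompact_univ.elim_nhds_subcover
    (fun x => F.V (L x).a ∩ (fun y => E F (L x).a (0, y)) ⁻¹' ball (E F (L x).a (0, x)) ((L x).δ / 9))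
    fun x _ => inter_mem ((F.isOpen _).mem_nhds ((L x).sub (L x).mem))
      ((cont_Et h0 ((L x).sub (L x).mem)).eventually (ball_mem_nhds _ (by
        have := (L x).pos; positivity)))
  let p : Fin s.card → X := fun j => (s.equivFin.symm j : X)
  let c : Fin s.card → Fin N := fun j => (L (p j)).a
  let z : Fin s.card → Cm d := fun j => E F (c j) (0, p j)
  let ρ : Fin s.card → ℝ := fun j => (L (p j)).δ / 9
  let K : Fin s.card → Set X := fun j => (L (p j)).K
  have hρ : ∀ j, 0 < ρ j := fun j => by have := (L (p j)).pos; positivity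
  have hKV : ∀ j, K j ⊆ F.V (c j) := fun j => (L (p j)).sub
  have hcov : ∀ x, ∃ j, x ∈ F.V (c j) ∧ E F (c j) (0, x) ∈ ball (z j) (ρ j) := fun x => by
    obtain ⟨y, hy, hx⟩ := mem_iUnion₂.1 (hs.2 (mem_univ x))
    obtain ⟨j, rfl⟩ : ∃ j, p j = y :=
      ⟨s.equivFin ⟨y, hy⟩, by simp only [p, Equiv.symm_apply_apply]⟩
    exact ⟨j, hx⟩
  have h9 : ∀ j, (L (p j)).δ = 9 * ρ j := fun j => by simp only [ρ]; ring
  obtain ⟨r₁, hr₁, hon⟩ : ∃ r₁ > 0, ∀ t ∈ ball (0 : Cm b) r₁, t ∈ ball 0 r ∧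
      ∀ j, ∀ w ∈ ball (z j) (9 * ρ j), ∃ x ∈ K j, E F (c j) (t, x) = w :=
    nhds_basis_ball.eventually_iff.1 ((isOpen_ball.eventually_mem h0).and
      (eventually_all.2 fun j => h9 j ▸ (L (p j)).onto))
  have hS : ∀ j, ∀ q ∈ ball (0 : Cm b) r₁ ×ˢ ball (z j) (9 * ρ j), q.1 ∈ ball 0 r ∧
      ContinuousAt (χ F (c j)) q ∧ χ F (c j) q ∈ K j ∧ E F (c j) (q.1, χ F (c j) q) = q.2 := by
    rintro j ⟨t, w⟩ ⟨ht, hw⟩
    obtain ⟨x, hx, he⟩ := (hon t ht).2 j w hw
    have h1 : χ F (c j) (t, w) = x := by rw [← χ_E (hon t ht).1 (hKV j hx)]; exact he ▸ rfl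
    refine ⟨(hon t ht).1, cont_χ (L (p j)).cpt (hKV j) (hon t ht).1 ?_, h1 ▸ hx, h1 ▸ he⟩
    filter_upwards [(isOpen_ball.prod isOpen_ball).mem_nhds (⟨ht, hw⟩ : (t, w) ∈ _ ×ˢ _)] with q hq
    exact (hon _ hq.1).2 j _ hq.2
  have h89 : ∀ j, closedBall (z j) (8 * ρ j) ⊆ ball (z j) (9 * ρ j) := fun j =>
    closedBall_subset_ball (by linarith [hρ j])
  let C : Fin s.card → Fin s.card → Set X := fun j j' =>
    (K j ∩ (fun x => E F (c j) (0, x)) ⁻¹' closedBall (z j) (8 * ρ j)) ∩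
      (K j' ∩ (fun x => E F (c j') (0, x)) ⁻¹' closedBall (z j') (ρ j'))
  have hcl : ∀ j (R : ℝ), IsClosed (K j ∩ (fun x => E F (c j) (0, x)) ⁻¹' closedBall (z j) R) :=
    fun j R => ContinuousOn.preimage_isClosed_of_isClosed
      (fun x hx => (cont_Et h0 (hKV j hx)).continuousWithinAt) (L (p j)).cpt.isClosed
      isClosed_closedBall
  have hC : ∀ j j', IsCompact (C j j') := fun j j' => ((hcl j _).inter (hcl j' _)).isCompact
  have hG : ∀ q : Fin s.card × Fin s.card, ∃ G : ℝ, ∀ x ∈ C q.1 q.2,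
      ‖g F (c q.1) (c q.2) (0, x)‖ ≤ G := fun q =>
    (hC q.1 q.2).exists_bound_of_continuousOn fun x hx =>
      (ContinuousAt.comp (f := fun x : X => ((0 : Cm b), x))
        (cont_g h0 (hKV _ hx.1.1) (hKV _ hx.2.1)) (by fun_prop)).continuousWithinAt
  choose G₀ hG₀ using hG
  obtain ⟨G, hG⟩ := (finite_range G₀).bddAbove
  have e1 : ∀ᶠ t in 𝓝 (0 : Cm b), ∀ x ∈ (univ : Set X),
      ∃ j, x ∈ F.V (c j) ∧ E F (c j) (t, x) ∈ ball (z j) (ρ j) := by
    refine isCompact_univ.eventually_forall_of_forall_eventually fun x _ => ?_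
    obtain ⟨j, h1, h2⟩ := hcov x
    filter_upwards [(continuous_snd.tendsto ((0 : Cm b), x)).eventually ((F.isOpen _).mem_nhds h1),
      (cont_E h0 h1).eventually (isOpen_ball.mem_nhds h2)] with q h3 h4
    exact ⟨j, h3, h4⟩
  have e2 : ∀ j j', ∀ᶠ t in 𝓝 (0 : Cm b), ∀ x ∈ C j j',
      χ F (c j) (t, E F (c j) (0, x)) ∈ F.V (c j') ∧
      E F (c j') (t, χ F (c j) (t, E F (c j) (0, x))) ∈ ball (z j') (2 * ρ j') ∧
      ‖g F (c j) (c j') (t, χ F (c j) (t, E F (c j) (0, x)))‖ ≤ G + 1 := by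
    intro j j'
    refine (hC j j').eventually_forall_of_forall_eventually fun x hx => ?_
    have hx1 := hKV _ hx.1.1
    have hx2 := hKV _ hx.2.1
    have h1 : Tendsto (fun q : Cm b × X => χ F (c j) (q.1, E F (c j) (0, q.2))) (𝓝 (0, x))
        (𝓝 x) := by
      have h2 := ContinuousAt.comp (f := fun q : Cm b × X => (q.1, E F (c j) (0, q.2)))
        (x := (0, x)) (hS j (0, _) ⟨mem_ball_self hr₁, h89 j hx.1.2⟩).2.1
        (continuousAt_fst.prodMk (ContinuousAt.comp (f := Prod.snd)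
          (g := fun x => E F (c j) (0, x)) (cont_Et h0 hx1) continuousAt_snd))
      have h3 := h2.tendsto
      simp only [Function.comp_def, χ_E h0 hx1] at h3
      exact h3
    have h2 := (continuous_fst.tendsto ((0 : Cm b), x)).prodMk_nhds h1
    refine (h1.eventually ((F.isOpen _).mem_nhds hx2)).and (Eventually.and
      (((cont_E h0 hx2).tendsto.comp h2).eventually (isOpen_ball.mem_nhds
        (closedBall_subset_ball (by linarith [hρ j']) hx.2.2)))
      (((cont_g h0 hx1 hx2).tendsto.comp h2).norm.eventually (eventually_le_nhds ?_)))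
    linarith [hG₀ (j, j') x hx, hG ⟨(j, j'), rfl⟩]
  obtain ⟨r₂, hr₂, hev⟩ := nhds_basis_ball.eventually_iff.1
    ((e1.and (eventually_all.2 fun j => eventually_all.2 (e2 j))).and (ball_mem_nhds 0 hr₁))
  have hle : ball (0 : Cm b) (min r₂ r) ⊆ ball 0 r₂ := ball_subset_ball (min_le_left _ _)
  have hle' : ball (0 : Cm b) (min r₂ r) ⊆ ball 0 r := ball_subset_ball (min_le_right _ _)
  have hhol : ∀ {Z : Type} [NormedAddCommGroup Z] [NormedSpace ℂ Z] (Ψ : Cm b × X → Z) j j',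
      (∀ t ∈ ball 0 r, ∀ x ∈ F.V (c j) ∩ F.V (c j'), ContinuousAt Ψ (t, x)) →
      (∀ x ∈ F.V (c j) ∩ F.V (c j'), DifferentiableOn ℂ (fun t => Ψ (t, x)) (ball 0 r)) →
      (∀ t ∈ ball 0 r, ∀ x ∈ F.V (c j) ∩ F.V (c j'), x ∈ F.V (c j) →
        DifferentiableAt ℂ (fun w => Ψ (t, χ F (c j) (t, w))) (E F (c j) (t, x))) →
      ∀ x ∈ C j j', DifferentiableOn ℂ (fun t => Ψ (t, χ F (c j) (t, E F (c j) (0, x))))
        (ball 0 (min r₂ r)) := by
    intro Z _ _ Ψ j j' k1 k2 k3 x hx t ht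
    have hw : (t, E F (c j) (0, x)) ∈ ball (0 : Cm b) r₁ ×ˢ ball (z j) (9 * ρ j) :=
      ⟨(hev (hle ht)).2, h89 j hx.1.2⟩
    exact (hol_χ ((F.isOpen _).inter (F.isOpen _)) (isOpen_ball.prod isOpen_ball) hw
      (fun q hq => ⟨(hS j q hq).1, (hS j q hq).2.1, hKV j (hS j q hq).2.2.1, (hS j q hq).2.2.2⟩)
      ⟨hKV j (hS j _ hw).2.2.1, ((hev (hle ht)).1.2 j j' x hx).1⟩ k1 k2
      k3).differentiableWithinAt
  refine ⟨min r₂ r, lt_min hr₂ hr, min_le_right _ _, s.card, ⟨{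
    e := fun t j => F.e t (c j)
    i := fun t j => F.i t (c j)
    z := z
    ρ := ρ
    Q := fun j j' => ball (z j) (8 * ρ j) ∩ (fun x => E F (c j) (0, x)) '' C j j'
    G := G + 1
    pos := hρ
    chart := fun t ht j => F.chart t (hle' ht) _
    tgt := fun t ht j w hw => ?_
    cover := fun t ht y => ?_
    cover0 := fun y => ?_
    sub := fun j j' => inter_subset_left
    src := fun t ht j j' w hw => ?_
    big := fun j j' w hw h1 h2 => ?_
    hol := fun j j' w hw => ?_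
    holg := fun j j' w hw => ?_
    bdd := fun t ht j j' w hw => ?_ }⟩⟩
  · obtain ⟨x, hx, rfl⟩ := (hon t (hev (hle ht)).2).2 j w (h89 j (ball_subset_closedBall hw))
    have h1 := F.source t (hle' ht) _ x (hKV j hx)
    exact ⟨(F.e t _).map_source h1.1, by
      rw [E, (F.e t _).left_inv h1.1]; exact h1.2⟩
  · obtain ⟨x, rfl⟩ := (F.φ t).surjective y
    obtain ⟨j, h1, h2⟩ := (hev (hle ht)).1.1 x (mem_univ _)
    exact ⟨j, (F.source t (hle' ht) _ x h1).1, ball_subset_ball (by linarith [hρ j]) h2⟩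
  · obtain ⟨x, rfl⟩ := (F.φ 0).surjective y
    obtain ⟨j, h1, h2⟩ := hcov x
    exact ⟨j, (F.source 0 h0 _ x h1).1, h2⟩
  · obtain ⟨-, x, hx, rfl⟩ := hw
    obtain ⟨h1, h2, -⟩ := (hev (hle ht)).1.2 j j' x hx
    rw [← φ_χ]
    exact ⟨(F.source t (hle' ht) _ _ h1).1, h2⟩
  · obtain ⟨-, -, k1, k2⟩ := hS j (0, w) ⟨mem_ball_self hr₁, h89 j (ball_subset_closedBall hw)⟩
    obtain ⟨x, hx, he⟩ := (hon 0 (mem_ball_self hr₁)).2 j' _
      (ball_subset_ball (by linarith [hρ j']) h2)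
    have h3 : χ F (c j) (0, w) = x := by
      rw [← χ_E h0 (hKV j' hx), he]
      simp only [χ, (F.e 0 (c j')).left_inv h1]
    refine ⟨hw, χ F (c j) (0, w), ⟨⟨k1, ?_⟩, h3 ▸ hx, ?_⟩, k2⟩
    · exact mem_preimage.2 (k2.symm ▸ ball_subset_closedBall hw)
    · rw [h3]
      exact mem_preimage.2 (he.symm ▸ ball_subset_closedBall h2)
  · obtain ⟨-, x, hx, rfl⟩ := hw
    simpa only [E, φ_χ] using hhol (E F (c j')) j j' (fun t ht x hx => cont_E ht hx.2)
      (fun x hx => F.hol _ x hx.2) (fun t ht x hx hx' => diff_E ht hx.2 hx') x hx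
  · obtain ⟨-, x, hx, rfl⟩ := hw
    simpa only [E, g, φ_χ] using hhol (g F (c j) (c j')) j j'
      (fun t ht x hx => cont_g ht hx.1 hx.2) (fun x hx => F.holg _ _ x hx)
      (fun t ht x hx hx' => diff_g ht hx.2 hx') x hx
  · obtain ⟨-, x, hx, rfl⟩ := hw
    simpa only [g, φ_χ] using ((hev (hle ht)).1.2 j j' x hx).2.2

end Vale.Agent.P301Z.Semi
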