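import Mathlib.Analysis.Complex.Schwarz
import Mathlib.Topology.Connected.Clopen
import Mathlib.Analysis.Normed.Module.Connected

/-!
# P301Z, block SEMI: holomorphic motions
-/

open scoped Topology
open Set Filter Metric Asymptotics

noncomputable section

namespace Vale.Agent.P301Z.Semi

variable {E F G : Type*} [NormedAddCommGroup E] [NormedSpace ℂ E] [NormedAddCommGroup F]
  [NormedSpace ℂ F] [NormedAddCommGroup G] [NormedSpace ℂ G]

/-- A continuous function of `(t, z)` which is holomorphic in `z`, and in `t` along one holomorphic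
curve `z = ζ t` through the point, is differentiable at the point. -/
theorem joint [ProperSpace F] {h : E × F → G} {U : Set (E × F)} (hU : IsOpen U)
    (hc : ContinuousOn h U) (hz : ∀ p ∈ U, DifferentiableAt ℂ (fun z => h (p.1, z)) p.2)
    {t₀ : E} {ζ : E → F} (h0 : (t₀, ζ t₀) ∈ U) (hζ : DifferentiableAt ℂ ζ t₀)
    (ht : DifferentiableAt ℂ (fun t => h (t, ζ t)) t₀) : DifferentiableAt ℂ h (t₀, ζ t₀) := by
  obtain ⟨R, hR, hB⟩ := Metric.nhds_basis_closedBall.mem_iff.1 (hU.mem_nhds h0)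
  have mem : ∀ t z, t ∈ closedBall t₀ R → z ∈ closedBall (ζ t₀) R → (t, z) ∈ U := fun t z a b =>
    hB (by rw [← closedBall_prod_same]; exact ⟨a, b⟩)
  have d1 : DifferentiableAt ℂ (fun p : E × F => h (t₀, p.2)) (t₀, ζ t₀) :=
    (hz _ h0).comp (t₀, ζ t₀) differentiableAt_snd
  have d2 : DifferentiableAt ℂ (fun p : E × F => h (t₀, ζ p.1)) (t₀, ζ t₀) :=
    DifferentiableAt.comp (g := fun z => h (t₀, z)) (t₀, ζ t₀) (hz _ h0)
      (hζ.comp (t₀, ζ t₀) differentiableAt_fst)
  have d3 : DifferentiableAt ℂ (fun p : E × F => h (p.1, ζ p.1)) (t₀, ζ t₀) :=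
    DifferentiableAt.comp (g := fun t => h (t, ζ t)) (t₀, ζ t₀) ht differentiableAt_fst
  have d4 : DifferentiableAt ℂ (fun p : E × F => p.2 - ζ p.1) (t₀, ζ t₀) :=
    differentiableAt_snd.sub (hζ.comp (t₀, ζ t₀) differentiableAt_fst)
  let k : E × F → G := fun p => h p - h (t₀, p.2)
  have o1 : (fun p : E × F => k p - k (p.1, ζ p.1)) =o[𝓝 (t₀, ζ t₀)] fun p => p.2 - ζ p.1 := by
    refine isLittleO_iff.2 fun ε hε => ?_
    have u : ∀ᶠ t in 𝓝 t₀, ∀ z ∈ closedBall (ζ t₀) R, ‖k (t, z)‖ < ε * R / 4 := by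
      refine (isCompact_closedBall _ _).eventually_forall_of_forall_eventually fun z hz' => ?_
      have m := mem t₀ z (mem_closedBall_self hR.le) hz'
      have c1 := hc.continuousAt (hU.mem_nhds m)
      have c2 : ContinuousAt k (t₀, z) := c1.sub (ContinuousAt.comp_of_eq c1 (by fun_prop) rfl)
      exact c2.norm.eventually_lt_const (by simp [k]; positivity)
    have c3 : ContinuousAt (fun p : E × F => ζ p.1) (t₀, ζ t₀) :=
      hζ.continuousAt.comp_of_eq continuousAt_fst rfl
    filter_upwards [continuousAt_fst.eventually u,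
      continuousAt_fst.eventually (closedBall_mem_nhds t₀ hR),
      c3.eventually (ball_mem_nhds (ζ t₀) (half_pos hR)),
      d4.continuousAt.eventually (ball_mem_nhds _ (half_pos hR))] with p a b c d
    have s : ball (ζ p.1) (R / 2) ⊆ closedBall (ζ t₀) R := fun z hz' =>
      mem_closedBall.2 ((dist_triangle _ (ζ p.1) _).trans (by
        linarith [mem_ball.1 hz', mem_ball.1 c]))
    have e := Complex.dist_le_div_mul_dist_of_mapsTo_ball (f := fun z => k (p.1, z))
      (c := ζ p.1) (R₁ := R / 2) (R₂ := ε * R / 2) (z := p.2)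
      (fun z hz' => ((hz _ (mem _ _ b (s hz'))).sub
        (hz (t₀, z) (mem t₀ z (mem_closedBall_self hR.le) (s hz')))).differentiableWithinAt)
      (fun z hz' => by
        rw [mem_closedBall, dist_eq_norm]
        linarith [norm_sub_le (k (p.1, z)) (k (p.1, ζ p.1)), a z (s hz'),
          a _ (s (mem_ball_self (half_pos hR)))])
      (by simpa [dist_eq_norm] using d)
    rwa [dist_eq_norm, dist_eq_norm, show ε * R / 2 / (R / 2) = ε by field_simp] at e
  have d5 : HasFDerivAt (𝕜 := ℂ) (fun p : E × F => k p - k (p.1, ζ p.1)) 0 (t₀, ζ t₀) := by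
    rw [hasFDerivAt_iff_isLittleO]
    simpa using o1.trans_isBigO (by simpa using d4.isBigO_sub)
  have e : h = fun p => (k p - k (p.1, ζ p.1)) + (h (t₀, p.2) + (h (p.1, ζ p.1) - h (t₀, ζ p.1))) :=
    funext fun p => by simp [k]
  rw [e]
  exact d5.differentiableAt.add (d1.add (d3.sub d2))

variable {T X : Type*} [TopologicalSpace T] [TopologicalSpace X]

omit [NormedSpace ℂ F] in
/-- A continuous family of open maps: the images of a neighbourhood contain a fixed ball. -/
theorem ball_sub [NormedSpace ℝ F] [WeaklyLocallyCompactSpace X] [R1Space X] {f : T → X → F}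
    {B : Set T} {V : Set X} (hB : IsOpen B) (hV : IsOpen V)
    (hc : ContinuousOn (fun p : T × X => f p.1 p.2) (B ×ˢ V))
    (ho : ∀ t ∈ B, ∀ O ⊆ V, IsOpen O → IsOpen (f t '' O)) {t₀ : T} (ht : t₀ ∈ B)
    (hi : InjOn (f t₀) V) {x₀ : X} (hx : x₀ ∈ V) {N : Set X} (hN : N ∈ 𝓝 x₀) :
    ∀ᶠ p : T × F in 𝓝 (t₀, f t₀ x₀), p.2 ∈ f p.1 '' (N ∩ V) := by
  obtain ⟨K, k1, k2, k3⟩ := local_compact_nhds (inter_mem hN (hV.mem_nhds hx))
  have kV : K ⊆ V := k2.trans inter_subset_right
  have cs : ∀ t ∈ B, ContinuousOn (f t) V := fun t ht' =>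
    hc.comp (f := fun x => (t, x)) (by fun_prop) fun x hx' => ⟨ht', hx'⟩
  have kS : IsCompact (K \ interior K) := k3.diff isOpen_interior
  have n1 : f t₀ x₀ ∉ f t₀ '' (K \ interior K) := fun ⟨x, h1, h2⟩ =>
    h1.2 (hi (kV h1.1) hx h2 ▸ mem_interior_iff_mem_nhds.2 k1)
  obtain ⟨r, hr, hb⟩ := Metric.isOpen_iff.1
    (kS.image_of_continuousOn ((cs _ ht).mono fun x h => kV h.1)).isClosed.isOpen_compl _ n1
  have u : ∀ᶠ t in 𝓝 t₀, ∀ x ∈ K, dist (f t x) (f t₀ x) < r / 2 := by
    refine k3.eventually_forall_of_forall_eventually fun x hx' => ?_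
    have c1 := hc.continuousAt ((hB.prod hV).mem_nhds (show (t₀, x) ∈ B ×ˢ V from ⟨ht, kV hx'⟩))
    have c2 : ContinuousAt (fun p : T × X => f t₀ p.2) (t₀, x) :=
      ((cs _ ht).continuousAt (hV.mem_nhds (kV hx'))).comp_of_eq continuousAt_snd rfl
    exact (c1.dist c2).eventually_lt_const (by simpa using hr)
  filter_upwards [continuousAt_fst.eventually u, continuousAt_fst.eventually (hB.mem_nhds ht),
    continuousAt_snd.eventually (ball_mem_nhds (f t₀ x₀) (half_pos hr))] with p a b c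
  have cl : IsClosed (f p.1 '' K) := (k3.image_of_continuousOn ((cs _ b).mono kV)).isClosed
  have s := (convex_ball (f t₀ x₀) (r / 2)).isPreconnected.subset_of_closure_inter_subset
    (ho _ b _ (interior_subset.trans kV) isOpen_interior)
    ⟨f p.1 x₀, a _ (mem_of_mem_nhds k1), mem_image_of_mem _ (mem_interior_iff_mem_nhds.2 k1)⟩
    fun y hy => by
      obtain ⟨x, h1, rfl⟩ := closure_minimal (image_mono interior_subset) cl hy.1
      refine ⟨x, by_contra fun h2 => hb (a := f t₀ x) ?_ ⟨x, ⟨h1, h2⟩, rfl⟩, rfl⟩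
      have := dist_triangle_left (f t₀ x) (f t₀ x₀) (f p.1 x)
      exact mem_ball.2 (by linarith [a x h1, mem_ball.1 hy.2])
  exact image_mono (interior_subset.trans k2) (s c)

end Vale.Agent.P301Z.Semi
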