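import Mathlib.Analysis.Complex.CauchyIntegral
import Mathlib.Analysis.Analytic.IsolatedZeros
import Mathlib.Topology.Compactness.Lindelof
import Mathlib.Analysis.Convex.PathConnected
import Mathlib.Analysis.Normed.Module.Convex
import Mathlib.Analysis.Real.Cardinality

/-!
# P301Z, block SEMI: countable unions of analytic sets and real points
-/

open scoped Topology
open Set Filter Metric

noncomputable section

namespace Vale.Agent.P301Z.Semi

variable {E E' : Type*} [NormedAddCommGroup E] [NormedSpace ℂ E] [NormedAddCommGroup E']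
  [NormedSpace ℂ E']

/-- `A` is in `D` the common zero set of a family of holomorphic functions on `D` -/
def AnS (D A : Set E) : Prop :=
  ∃ F : Set (E → ℂ), (∀ f ∈ F, DifferentiableOn ℂ f D) ∧ ∀ z ∈ D, z ∈ A ↔ ∀ f ∈ F, f z = 0

theorem AnS.iInter {D : Set E} {J : Sort*} {A : J → Set E} (h : ∀ j, AnS D (A j)) :
    AnS D (⋂ j, A j) := by
  choose F h1 h2 using h
  refine ⟨⋃ j, F j, fun f hf => ?_, fun z hz => ?_⟩
  · obtain ⟨j, hj⟩ := mem_iUnion.1 hf
    exact h1 j f hj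
  · simp only [mem_iInter, mem_iUnion, forall_exists_index]
    exact ⟨fun k f j hf => (h2 j z hz).1 (k j) f hf, fun k j => (h2 j z hz).2 fun f hf => k f j hf⟩

theorem AnS.comp {D A : Set E} (h : AnS D A) {D' : Set E'} {ψ : E' → E}
    (hψ : DifferentiableOn ℂ ψ D') (hm : MapsTo ψ D' D) : AnS D' (ψ ⁻¹' A) := by
  obtain ⟨F, h1, h2⟩ := h
  refine ⟨(fun f => f ∘ ψ) '' F, ?_, fun z hz => ?_⟩
  · rintro _ ⟨f, hf, rfl⟩
    exact (h1 f hf).comp hψ hm
  · rw [mem_preimage, h2 _ (hm hz), forall_mem_image]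
    rfl

/-- one variable -/
theorem AnS.one {D A : Set ℂ} (h : AnS D A) (ho : IsOpen D) (hc : IsPreconnected D)
    (hu : ¬ (A ∩ D).Countable) : D ⊆ A := by
  obtain ⟨F, h1, h2⟩ := h
  intro z hz
  refine (h2 z hz).2 fun f hf => ?_
  have ha : AnalyticOnNhd ℂ f D := (h1 f hf).analyticOnNhd ho
  by_contra hne
  refine hu ((HereditarilyLindelofSpace.isLindelof _).countable_of_isDiscrete ?_)
  rw [isDiscrete_iff_nhdsNE]
  intro x hx
  have k : ¬ ∃ᶠ y in 𝓝[≠] x, f y = 0 := fun k =>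
    hne (ha.eqOn_zero_of_preconnected_of_frequently_eq_zero hc hx.2 k hz)
  rw [inf_principal_eq_bot]
  filter_upwards [not_frequently.1 k] with y hy hy'
  exact hy ((h2 y hy'.2).1 hy'.1 f hf)

/-- an analytic subset of a convex set with an interior point is everything -/
theorem AnS.cvx {D A : Set E} (h : AnS D A) (ho : IsOpen D) (hc : Convex ℝ D) {q : E} (hq : q ∈ D)
    (hA : A ∈ 𝓝 q) : D ⊆ A := by
  intro z hz
  let ψ : ℂ → E := fun s => q + s • (z - q)
  have hψ : Differentiable ℂ ψ := by fun_prop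
  have h0 : ψ 0 = q := by simp [ψ]
  have hc' : Convex ℝ (ψ ⁻¹' D) := fun a ha b hb s t hs ht hst => by
    have e : ψ (s • a + t • b) = s • ψ a + t • ψ b := by
      simp only [ψ, smul_add, add_smul, smul_assoc]
      rw [add_add_add_comm, ← add_smul, hst, one_smul]
    rw [mem_preimage, e]
    exact hc ha hb hs ht hst
  have k := (h.comp hψ.differentiableOn (mapsTo_preimage ψ D)).one (ho.preimage hψ.continuous)
    hc'.isPreconnected fun k => by
      have h1 : ψ ⁻¹' A ∩ ψ ⁻¹' D ∈ 𝓝 (0 : ℂ) :=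
        inter_mem (hψ.continuous.continuousAt.preimage_mem_nhds (h0 ▸ hA))
          (hψ.continuous.continuousAt.preimage_mem_nhds (h0 ▸ ho.mem_nhds hq))
      obtain ⟨ε, hε, h2⟩ := Metric.mem_nhds_iff.1 h1
      have h3 : (Ioo (-ε) ε).Countable :=
        ((k.mono h2).preimage Complex.ofReal_injective).mono fun x hx => by
          simpa [abs_lt] using hx
      exact (Cardinal.Real.Ioo_countable_iff.1 h3).not_gt (by linarith)
  simpa [ψ] using @k 1 (by simpa [ψ] using hz)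

/-- the complex point with the real coordinates `p` -/
def rp {n : ℕ} (p : Fin n → ℝ) : Fin n → ℂ := fun i => p i

theorem cons_mem {n : ℕ} {p : Fin (n + 1) → ℂ} {ρ : ℝ} {x : ℂ} {κ : Fin n → ℂ} (hρ : 0 < ρ)
    (hx : x ∈ ball (p 0) ρ) (hκ : κ ∈ ball (Fin.tail p) ρ) :
    (Fin.cons x κ : Fin (n + 1) → ℂ) ∈ ball p ρ := by
  rw [mem_ball, dist_pi_lt_iff hρ] at *
  exact fun i => Fin.cases hx (fun j => hκ j) i

theorem step {J : Type} [Countable J] {n : ℕ} {ρ : ℝ} (hρ : 0 < ρ)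
    (ih : ∀ (p : Fin n → ℝ) (A : J → Set (Fin n → ℂ)), (∀ j, AnS (ball (rp p) ρ) (A j)) →
      (∀ κ, rp κ ∈ ball (rp p) ρ → ∃ j, rp κ ∈ A j) → ∃ j, ball (rp p) ρ ⊆ A j)
    (p : Fin (n + 1) → ℝ) (A : J → Set (Fin (n + 1) → ℂ)) (hA : ∀ j, AnS (ball (rp p) ρ) (A j))
    (h : ∀ κ, rp κ ∈ ball (rp (Fin.tail p)) ρ →
      {x : ℝ | |x - p 0| < ρ ∧ ∀ j, rp (Fin.cons x κ) ∉ A j}.Countable) :
    ∃ j, ball (rp p) ρ ⊆ A j := by
  have d1 : ∀ x : ℂ, Differentiable ℂ fun κ : Fin n → ℂ => (Fin.cons x κ : Fin (n + 1) → ℂ) :=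
    fun x => differentiable_pi.2 fun i => Fin.cases (by simp) (fun j => by simp; fun_prop) i
  have d2 : ∀ κ : Fin n → ℂ, Differentiable ℂ fun x : ℂ => (Fin.cons x κ : Fin (n + 1) → ℂ) :=
    fun κ => differentiable_pi.2 fun i => Fin.cases (by simp) (fun j => by simp) i
  obtain ⟨j, hj⟩ := ih (Fin.tail p) (fun j => ⋂ x : ball (rp p 0) ρ,
      (fun κ => (Fin.cons x.1 κ : Fin (n + 1) → ℂ)) ⁻¹' A j)
    (fun j => AnS.iInter fun x => (hA j).comp (d1 x).differentiableOn
      fun κ hκ => cons_mem hρ x.2 hκ) fun κ hκ => by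
      by_contra hn
      have h1 : ∀ j, ((fun x : ℂ => (Fin.cons x (rp κ) : Fin (n + 1) → ℂ)) ⁻¹' A j ∩
          ball (rp p 0) ρ).Countable := fun j => by
        by_contra hu
        exact hn ⟨j, mem_iInter.2 fun x => ((hA j).comp (d2 _).differentiableOn
          fun x hx => cons_mem hρ hx hκ).one isOpen_ball (convex_ball _ _).isPreconnected hu x.2⟩
      have h2 : (Ioo (p 0 - ρ) (p 0 + ρ)).Countable :=
        ((h κ hκ).union (countable_iUnion fun j =>
          (h1 j).preimage Complex.ofReal_injective)).mono fun x hx => by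
          have h3 : |x - p 0| < ρ := abs_lt.2 ⟨by linarith [hx.1], by linarith [hx.2]⟩
          by_cases h4 : ∀ j, rp (Fin.cons x κ) ∉ A j
          · exact Or.inl ⟨h3, h4⟩
          · obtain ⟨j, h5⟩ := not_forall.1 h4
            refine Or.inr (mem_iUnion.2 ⟨j, ?_, ?_⟩)
            · have e : rp (Fin.cons x κ) = Fin.cons (x : ℂ) (rp κ) :=
                funext fun i => Fin.cases rfl (fun _ => rfl) i
              rw [e, not_not] at h5
              exact h5
            · rw [mem_ball, rp, Complex.dist_of_im_eq (by simp)]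
              simpa [Real.dist_eq] using h3
      exact (Cardinal.Real.Ioo_countable_iff.1 h2).not_gt (by linarith)
  refine ⟨j, fun z hz => ?_⟩
  rw [mem_ball, dist_pi_lt_iff hρ] at hz
  have k := mem_iInter.1 (@hj (Fin.tail z) ((dist_pi_lt_iff hρ).2 fun i => hz i.succ)) ⟨z 0, hz 0⟩
  simpa using k

theorem cover {J : Type} [Countable J] {ρ : ℝ} (hρ : 0 < ρ) (n : ℕ) :
    ∀ (p : Fin n → ℝ) (A : J → Set (Fin n → ℂ)), (∀ j, AnS (ball (rp p) ρ) (A j)) →
      (∀ κ, rp κ ∈ ball (rp p) ρ → ∃ j, rp κ ∈ A j) → ∃ j, ball (rp p) ρ ⊆ A j := by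
  induction n with
  | zero =>
    intro p A _ h
    obtain ⟨j, hj⟩ := h p (mem_ball_self hρ)
    exact ⟨j, fun z _ => Subsingleton.elim (rp p) z ▸ hj⟩
  | succ n ih =>
    refine fun p A hA h => step hρ ih p A hA fun κ hκ => countable_empty.mono fun x hx => ?_
    have e : rp (Fin.cons x κ) = Fin.cons (x : ℂ) (rp κ) :=
      funext fun i => Fin.cases rfl (fun _ => rfl) i
    obtain ⟨j, hj⟩ := h (Fin.cons x κ) (e ▸ cons_mem hρ (by
      rw [mem_ball, rp, Complex.dist_of_im_eq (by simp)]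
      simpa [Real.dist_eq] using hx.1) hκ)
    exact hx.2 j hj

/-- **UNC**: countably many analytic subsets `A j` of the convex set `D`; if the image of a polydisc
has an interior point, and on each real line all but countably many points go to the union of the
`A j`, then one of the `A j` is `D`. -/
theorem unc {J : Type} [Countable J] {D : Set E} (ho : IsOpen D) (hc : Convex ℝ D) {A : J → Set E}
    (hA : ∀ j, AnS D (A j)) {n : ℕ} {ρ : ℝ} (hρ : 0 < ρ) (p : Fin (n + 1) → ℝ)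
    {ψ : (Fin (n + 1) → ℂ) → E} (hψ : DifferentiableOn ℂ ψ (ball (rp p) ρ))
    (hm : MapsTo ψ (ball (rp p) ρ) D) (hi : (interior (ψ '' ball (rp p) ρ)).Nonempty)
    (h : ∀ κ, rp κ ∈ ball (rp (Fin.tail p)) ρ →
      {x : ℝ | |x - p 0| < ρ ∧ ∀ j, ψ (rp (Fin.cons x κ)) ∉ A j}.Countable) : ∃ j, D ⊆ A j := by
  obtain ⟨j, hj⟩ := step hρ (cover hρ n) p (fun j => ψ ⁻¹' A j) (fun j => (hA j).comp hψ hm) h
  obtain ⟨q, hq⟩ := hi
  exact ⟨j, (hA j).cvx ho hc (hm.image_subset (interior_subset hq))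
    (mem_of_superset (mem_interior_iff_mem_nhds.1 hq) (image_subset_iff.2 hj))⟩

end Vale.Agent.P301Z.Semi
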